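import Mathlib

set_option linter.unusedSectionVars false
set_option linter.unusedVariables false

open Finset

namespace Vale.Agent.Lib.P050

section

variable {W : Type*} [DecidableEq W]

/-- No induced four-vertex path of the relation `R` inside `U`. -/
def NoP4 (R : W → W → Prop) (U : Finset W) : Prop :=
  ∀ a ∈ U, ∀ b ∈ U, ∀ c ∈ U, ∀ d ∈ U, a ≠ b → a ≠ c → a ≠ d → b ≠ c → b ≠ d → c ≠ d →
    R a b → R b c → R c d → ¬ R a c → ¬ R a d → ¬ R b d → False

/-- `U` splits into two nonempty parts that are completely related or completely unrelated. -/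
def Split (R : W → W → Prop) (U : Finset W) : Prop :=
  ∃ U₁ U₂ : Finset W, U₁.Nonempty ∧ U₂.Nonempty ∧ Disjoint U₁ U₂ ∧ U₁ ∪ U₂ = U ∧
    ((∀ i ∈ U₁, ∀ j ∈ U₂, R i j) ∨ (∀ i ∈ U₁, ∀ j ∈ U₂, ¬ R i j))

lemma NoP4.mono {R : W → W → Prop} {U U' : Finset W} (h : NoP4 R U) (hs : U' ⊆ U) : NoP4 R U' :=
  fun a ha b hb c hc d hd => h a (hs ha) b (hs hb) c (hs hc) d (hs hd)

lemma NoP4.compl {R : W → W → Prop} (hR : ∀ i j, R i j → R j i) {U : Finset W} (h : NoP4 R U) :
    NoP4 (fun i j => ¬ R i j) U := by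
  intro a ha b hb c hc d hd hab hac had hbc hbd hcd r1 r2 r3 n1 n2 n3
  simp only [not_not] at n1 n2 n3
  exact h b hb d hd a ha c hc hbd hab.symm hbc had.symm hcd.symm hac n3 (hR _ _ n2) n1
    (fun r => r1 (hR _ _ r)) r2 (fun r => r3 (hR _ _ r))

lemma Split.of_compl {R : W → W → Prop} {U : Finset W} (h : Split (fun i j => ¬ R i j) U) :
    Split R U := by
  obtain ⟨U₁, U₂, h1, h2, h3, h4, h5⟩ := h
  refine ⟨U₁, U₂, h1, h2, h3, h4, ?_⟩
  rcases h5 with h5 | h5
  · exact Or.inr h5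
  · exact Or.inl fun i hi j hj => not_not.1 (h5 i hi j hj)

lemma step_aux {R : W → W → Prop} (hR : ∀ i j, R i j → R j i) (U₁ U₂ : Finset W)
    (hd : Disjoint U₁ U₂) (anti : ∀ i ∈ U₁, ∀ j ∈ U₂, ¬ R i j) (v : W) (hv : v ∉ U₁ ∪ U₂)
    (h : NoP4 R (insert v (U₁ ∪ U₂))) (hw : ∃ x ∈ U₁, ¬ R v x) (hz : ∃ z ∈ U₂, R v z) :
    Split R (insert v (U₁ ∪ U₂)) := by
  classical
  obtain ⟨x₀, hx₀, hx₀v⟩ := hw
  obtain ⟨z, hz, hvz⟩ := hz
  have hv1 : v ∉ U₁ := fun hh => hv (Finset.mem_union_left _ hh)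
  have hv2 : v ∉ U₂ := fun hh => hv (Finset.mem_union_right _ hh)
  refine ⟨U₁.filter (fun x => ¬ R v x), insert v (U₁.filter (fun x => R v x) ∪ U₂),
    ⟨x₀, Finset.mem_filter.2 ⟨hx₀, hx₀v⟩⟩, ⟨v, Finset.mem_insert_self _ _⟩, ?_, ?_, Or.inr ?_⟩
  · rw [Finset.disjoint_left]
    intro y hy hy'
    obtain ⟨hy1, hy2⟩ := Finset.mem_filter.1 hy
    rcases Finset.mem_insert.1 hy' with rfl | hy'
    · exact hv1 hy1
    · rcases Finset.mem_union.1 hy' with hy' | hy'
      · exact hy2 (Finset.mem_filter.1 hy').2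
      · exact (Finset.disjoint_left.1 hd) hy1 hy'
  · ext y
    simp only [Finset.mem_union, Finset.mem_filter, Finset.mem_insert]
    constructor
    · rintro (⟨h1, _⟩ | rfl | ⟨h1, _⟩ | h1)
      · exact Or.inr (Or.inl h1)
      · exact Or.inl rfl
      · exact Or.inr (Or.inl h1)
      · exact Or.inr (Or.inr h1)
    · rintro (rfl | h1 | h1)
      · exact Or.inr (Or.inl rfl)
      · by_cases hr : R v y
        · exact Or.inr (Or.inr (Or.inl ⟨h1, hr⟩))
        · exact Or.inl ⟨h1, hr⟩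
      · exact Or.inr (Or.inr (Or.inr h1))
  · intro y hy j hj
    obtain ⟨hy1, hy2⟩ := Finset.mem_filter.1 hy
    rcases Finset.mem_insert.1 hj with rfl | hj
    · exact fun r => hy2 (hR _ _ r)
    · rcases Finset.mem_union.1 hj with hj | hj
      · obtain ⟨hj1, hj2⟩ := Finset.mem_filter.1 hj
        intro r
        have mem1 : ∀ t ∈ U₁, t ∈ insert v (U₁ ∪ U₂) := fun t ht =>
          Finset.mem_insert_of_mem (Finset.mem_union_left _ ht)
        have mem2 : ∀ t ∈ U₂, t ∈ insert v (U₁ ∪ U₂) := fun t ht =>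
          Finset.mem_insert_of_mem (Finset.mem_union_right _ ht)
        refine h y (mem1 y hy1) j (mem1 j hj1) v (Finset.mem_insert_self _ _) z (mem2 z hz)
          ?_ ?_ ?_ ?_ ?_ ?_ r (hR _ _ hj2) hvz (fun r' => hy2 (hR _ _ r')) (anti y hy1 z hz)
          (anti j hj1 z hz)
        · rintro rfl
          exact hy2 hj2
        · rintro rfl
          exact hv1 hy1
        · rintro rfl
          exact (Finset.disjoint_left.1 hd) hy1 hz
        · rintro rfl
          exact hv1 hj1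
        · rintro rfl
          exact (Finset.disjoint_left.1 hd) hj1 hz
        · rintro rfl
          exact hv2 hz
      · exact anti y hy1 j hj

lemma step {R : W → W → Prop} (hR : ∀ i j, R i j → R j i) (U₁ U₂ : Finset W)
    (hn1 : U₁.Nonempty) (hn2 : U₂.Nonempty)
    (hd : Disjoint U₁ U₂) (anti : ∀ i ∈ U₁, ∀ j ∈ U₂, ¬ R i j) (v : W) (hv : v ∉ U₁ ∪ U₂)
    (h : NoP4 R (insert v (U₁ ∪ U₂))) : Split R (insert v (U₁ ∪ U₂)) := by
  classical
  have hv1 : v ∉ U₁ := fun hh => hv (Finset.mem_union_left _ hh)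
  have hv2 : v ∉ U₂ := fun hh => hv (Finset.mem_union_right _ hh)
  by_cases c1 : ∀ x ∈ U₁, ¬ R v x
  · refine ⟨U₁, insert v U₂, hn1, ⟨v, Finset.mem_insert_self _ _⟩, ?_, ?_, Or.inr ?_⟩
    · rw [Finset.disjoint_insert_right]
      exact ⟨hv1, hd⟩
    · rw [Finset.union_insert]
    · intro i hi j hj
      rcases Finset.mem_insert.1 hj with rfl | hj
      · exact fun r => c1 i hi (hR _ _ r)
      · exact anti i hi j hj
  by_cases c2 : ∀ x ∈ U₂, ¬ R v x
  · refine ⟨insert v U₁, U₂, ⟨v, Finset.mem_insert_self _ _⟩, hn2, ?_, ?_, Or.inr ?_⟩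
    · rw [Finset.disjoint_insert_left]
      exact ⟨hv2, hd⟩
    · rw [Finset.insert_union]
    · intro i hi j hj
      rcases Finset.mem_insert.1 hi with rfl | hi
      · exact c2 j hj
      · exact anti i hi j hj
  simp only [not_forall, not_not] at c1 c2
  obtain ⟨z₁, hz₁, hvz₁⟩ := c1
  obtain ⟨z₂, hz₂, hvz₂⟩ := c2
  by_cases c3 : ∃ x ∈ U₁, ¬ R v x
  · exact step_aux hR U₁ U₂ hd anti v hv h c3 ⟨z₂, hz₂, hvz₂⟩
  by_cases c4 : ∃ x ∈ U₂, ¬ R v x
  · have := step_aux hR U₂ U₁ hd.symm (fun i hi j hj r => anti j hj i hi (hR _ _ r)) v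
      (by rwa [Finset.union_comm]) (by rwa [Finset.union_comm]) c4 ⟨z₁, hz₁, hvz₁⟩
    rwa [Finset.union_comm] at this
  simp only [not_exists, not_and, not_not] at c3 c4
  refine ⟨{v}, U₁ ∪ U₂, ⟨v, Finset.mem_singleton_self _⟩, hn1.mono Finset.subset_union_left, ?_, ?_,
    Or.inl ?_⟩
  · rw [Finset.disjoint_singleton_left]
    exact hv
  · rfl
  · intro i hi j hj
    rw [Finset.mem_singleton] at hi
    subst hi
    rcases Finset.mem_union.1 hj with hj | hj
    · exact c3 j hj
    · exact c4 j hj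

/-- Seinsche-type decomposition: a set with at least two elements and no induced four-vertex path
splits. -/
theorem split_of_noP4 {R : W → W → Prop} (hR : ∀ i j, R i j → R j i) (U : Finset W) :
    2 ≤ U.card → NoP4 R U → Split R U := by
  classical
  induction U using Finset.induction_on with
  | empty => intro h; simp at h
  | insert v U' hv ih =>
    intro hcard hno
    rw [Finset.card_insert_of_notMem hv] at hcard
    by_cases h2 : 2 ≤ U'.card
    · obtain ⟨U₁, U₂, hn1, hn2, hd, hU, hc⟩ := ih h2 (hno.mono (Finset.subset_insert _ _))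
      subst hU
      rcases hc with hc | hc
      · refine Split.of_compl (step (R := fun i j => ¬ R i j) ?_ U₁ U₂ hn1 hn2 hd ?_ v hv
          (hno.compl hR))
        · exact fun i j hij r => hij (hR _ _ r)
        · exact fun i hi j hj => not_not.2 (hc i hi j hj)
      · exact step hR U₁ U₂ hn1 hn2 hd hc v hv hno
    · have h1 : U'.card = 1 := by omega
      obtain ⟨u, rfl⟩ := Finset.card_eq_one.1 h1
      refine ⟨{v}, {u}, ⟨v, Finset.mem_singleton_self _⟩, ⟨u, Finset.mem_singleton_self _⟩, ?_, ?_, ?_⟩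
      · rw [Finset.disjoint_singleton_left]
        exact hv
      · rfl
      · by_cases r : R v u
        · left
          intro i hi j hj
          rw [Finset.mem_singleton] at hi hj
          subst hi hj
          exact r
        · right
          intro i hi j hj
          rw [Finset.mem_singleton] at hi hj
          subst hi hj
          exact r

end

end Vale.Agent.Lib.P050
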