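import Vale.Agent.Lib.P050.Host
import Vale.Agent.Lib.P050.Split

set_option linter.unusedSectionVars false
set_option linter.unusedVariables false

open Finset

namespace Vale.Agent.Lib.P050

section

variable {V : Type*} [Fintype V] [DecidableEq V]
variable {W : Type*} [Fintype W] [DecidableEq W]

/-- indicator weights -/
def ind (U : Finset W) : W → ℝ := fun i => if i ∈ U then 1 else 0

/-- adjacency kernel -/
def adjw (G : SimpleGraph W) [DecidableRel G.Adj] : W → W → ℝ :=
  fun i j => if G.Adj i j then 1 else 0

lemma mass_ind (U : Finset W) : mass (ind U) = U.card := by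
  simp [mass, ind]

theorem good_of_noP4 (side : V → Bool) (G : SimpleGraph W) [DecidableRel G.Adj] :
    ∀ n : ℕ, ∀ U : Finset W, U.card = n → U.Nonempty → NoP4 G.Adj U →
      Good side (adjw G) (ind U) := by
  intro n
  induction n using Nat.strong_induction_on with
  | _ n ih =>
    intro U hn hne hno
    by_cases h2 : 2 ≤ U.card
    · obtain ⟨U₁, U₂, hn1, hn2, hd, hU, hc⟩ := split_of_noP4 (fun i j h => h.symm) U h2 hno
      have hcard : U₁.card + U₂.card = U.card := by
        rw [← hU, Finset.card_union_of_disjoint hd]
      have c1 : 0 < U₁.card := Finset.card_pos.2 hn1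
      have c2 : 0 < U₂.card := Finset.card_pos.2 hn2
      have G₁ := ih U₁.card (by omega) U₁ rfl hn1
        (hno.mono (hU ▸ Finset.subset_union_left))
      have G₂ := ih U₂.card (by omega) U₂ rfl hn2
        (hno.mono (hU ▸ Finset.subset_union_right))
      have hind : ind U = fun i => ind U₁ i + ind U₂ i := by
        funext i
        rw [← hU]
        simp only [ind, Finset.mem_union]
        by_cases h1 : i ∈ U₁
        · have : i ∉ U₂ := Finset.disjoint_left.1 hd h1
          simp [h1, this]
        · simp [h1]
      rw [hind]
      have hw : ∀ i j, 0 ≤ adjw G i j := by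
        intro i j
        simp only [adjw]
        split_ifs <;> simp
      have ha : ∀ (U' : Finset W) i, 0 ≤ ind U' i := by
        intro U' i
        simp only [ind]
        split_ifs <;> simp
      have hm1 : 0 < mass (ind U₁) := by rw [mass_ind]; exact_mod_cast c1
      have hm2 : 0 < mass (ind U₂) := by rw [mass_ind]; exact_mod_cast c2
      have hmem : ∀ (U' : Finset W) i, ind U' i ≠ 0 → i ∈ U' := by
        intro U' i hi
        by_contra hcon
        simp [ind, hcon] at hi
      rcases hc with hc | hc
      · refine Good.combine side (adjw G) hw (ind U₁) (ind U₂) (ha _) (ha _) hm1 hm2 1 ?_ G₁ G₂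
        intro i j hi hj
        have := hc i (hmem _ _ hi) j (hmem _ _ hj)
        simp [adjw, this, this.symm]
      · refine Good.combine side (adjw G) hw (ind U₁) (ind U₂) (ha _) (ha _) hm1 hm2 0 ?_ G₁ G₂
        intro i j hi hj
        have := hc i (hmem _ _ hi) j (hmem _ _ hj)
        have h' : ¬ G.Adj j i := fun r => this r.symm
        simp [adjw, this, h']
    · have h1 : U.card = 1 := by
        have := Finset.card_pos.2 hne
        omega
      obtain ⟨i₀, rfl⟩ := Finset.card_eq_one.1 h1
      have : ind ({i₀} : Finset W) = fun i => if i = i₀ then (1 : ℝ) else 0 := by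
        funext i
        simp [ind]
      rw [this]
      exact Good.single side (adjw G) i₀ 1 one_pos

end

end Vale.Agent.Lib.P050
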