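import Mathlib

set_option linter.unusedSectionVars false
set_option linter.unusedVariables false

/-!
# A Bethe-type lower bound for attractive pair models on finite chains

Edge induction, strengthened over all positive vertex fields.
-/

open Finset

namespace Vale.Agent.Lib.P050

section basic

variable {α : Type*} [LinearOrder α]

/-- Total positivity of order two of a kernel on a chain. -/
def TP2 (K : α → α → ℝ) : Prop :=
  ∀ x x' y y', x ≤ x' → y ≤ y' → K x y' * K x' y ≤ K x y * K x' y'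

lemma TP2.inf_sup {K : α → α → ℝ} (hK : TP2 K) (x x' y y' : α) :
    K x y * K x' y' ≤ K (x ⊓ x') (y ⊓ y') * K (x ⊔ x') (y ⊔ y') := by
  rcases le_total x x' with hx | hx <;> rcases le_total y y' with hy | hy
  · simp [hx, hy]
  · have := hK x x' y' y hx hy
    simp [hx, hy]
    linarith
  · have := hK x' x y y' hx hy
    simp [hx, hy]
    linarith
  · simp [hx, hy]
    linarith [mul_comm (K x y) (K x' y')]

lemma mul_inf_sup_eq (φ : α → ℝ) (x y : α) : φ x * φ y = φ (x ⊓ y) * φ (x ⊔ y) := by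
  rcases le_total x y with h | h
  · simp [h]
  · simp [h, mul_comm]

end basic

/-- Jensen for the logarithm. -/
lemma sum_mul_log_le {ι : Type*} (s : Finset ι) (w z : ι → ℝ) (hw : ∀ i ∈ s, 0 ≤ w i)
    (hw1 : ∑ i ∈ s, w i = 1) (hz : ∀ i ∈ s, 0 < z i) :
    ∑ i ∈ s, w i * Real.log (z i) ≤ Real.log (∑ i ∈ s, w i * z i) := by
  have := strictConcaveOn_log_Ioi.concaveOn.le_map_sum (t := s) (w := w) (p := z) hw hw1
    (fun i hi => hz i hi)
  simpa [smul_eq_mul] using this


section key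

variable {α : Type*} [Fintype α] [LinearOrder α]

/-- Every positive TP2 matrix on the chain has a rank-one majorant with the same diagonal. -/
def HasMajorant (α : Type*) [LinearOrder α] : Prop :=
  ∀ T : α → α → ℝ, (∀ x y, 0 < T x y) → TP2 T →
    ∃ U W : α → ℝ, (∀ x, 0 < U x) ∧ (∀ x, 0 < W x) ∧ (∀ x, U x * W x = T x x) ∧
      ∀ x x', T x x' ≤ U x * W x'

lemma TP2.comp {N K : α → α → ℝ} (hN0 : ∀ x y, 0 ≤ N x y) (hK0 : ∀ x y, 0 ≤ K x y)
    (hN : TP2 N) (hK : TP2 K) : TP2 (fun x x' => ∑ y, N x y * K x' y) := by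
  intro x₁ x₂ z₁ z₂ hx hz
  refine four_functions_theorem_univ (fun y => N x₁ y * K z₂ y) (fun y => N x₂ y * K z₁ y)
    (fun y => N x₁ y * K z₁ y) (fun y => N x₂ y * K z₂ y)
    (fun y => mul_nonneg (hN0 _ _) (hK0 _ _)) (fun y => mul_nonneg (hN0 _ _) (hK0 _ _))
    (fun y => mul_nonneg (hN0 _ _) (hK0 _ _)) (fun y => mul_nonneg (hN0 _ _) (hK0 _ _)) ?_
  intro a b
  rcases le_total a b with h | h
  · have h1 := hK z₁ z₂ a b hz h
    simp only [inf_of_le_left h, sup_of_le_right h]
    calc N x₁ a * K z₂ a * (N x₂ b * K z₁ b) = (N x₁ a * N x₂ b) * (K z₁ b * K z₂ a) := by ring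
      _ ≤ (N x₁ a * N x₂ b) * (K z₁ a * K z₂ b) :=
          mul_le_mul_of_nonneg_left h1 (mul_nonneg (hN0 _ _) (hN0 _ _))
      _ = _ := by ring
  · have h1 := hN x₁ x₂ b a hx h
    simp only [inf_of_le_right h, sup_of_le_left h]
    calc N x₁ a * K z₂ a * (N x₂ b * K z₁ b) = (N x₁ a * N x₂ b) * (K z₂ a * K z₁ b) := by ring
      _ ≤ (N x₁ b * N x₂ a) * (K z₂ a * K z₁ b) :=
          mul_le_mul_of_nonneg_right h1 (mul_nonneg (hK0 _ _) (hK0 _ _))
      _ = _ := by ring

/-- The two-vertex lemma driving the edge induction. -/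
lemma key_lemma (hα : HasMajorant α) (θ η : α → ℝ) (hθ : ∀ x, 0 < θ x) (hη : ∀ x, 0 < η x)
    (hθ1 : ∑ x, θ x = 1)
    (N K : α → α → ℝ) (hN : ∀ x y, 0 < N x y) (hNT : TP2 N) (hK : ∀ x y, 0 < K x y)
    (hKT : TP2 K) (hK1 : ∀ y, ∑ x, θ x * K x y = 1) (hK2 : ∀ x, ∑ y, η y * K x y = 1) (c : ℝ)
    (hyp : ∀ a b : α → ℝ, (∀ x, 0 < a x) → (∀ y, 0 < b y) →
      c + ∑ x, θ x * Real.log (a x) + ∑ y, η y * Real.log (b y)
        ≤ Real.log (∑ x, ∑ y, N x y * a x * b y)) :
    c ≤ Real.log (∑ x, ∑ y, N x y * K x y) := by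
  classical
  have hne : Nonempty α := by
    by_contra h
    rw [not_nonempty_iff] at h
    simp at hθ1
  obtain ⟨x₀⟩ := hne
  set T : α → α → ℝ := fun x x' => ∑ y, N x y * K x' y with hT
  have hTpos : ∀ x x', 0 < T x x' := fun x x' =>
    Finset.sum_pos (fun y _ => mul_pos (hN _ _) (hK _ _)) ⟨x₀, mem_univ _⟩
  have hTT : TP2 T := TP2.comp (fun x y => (hN x y).le) (fun x y => (hK x y).le) hNT hKT
  obtain ⟨U, W, hU, hW, hd, hm⟩ := hα T hTpos hTT
  set a : α → ℝ := fun x => θ x / U x with ha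
  set b : α → ℝ := fun y => ∑ x', K x' y * U x' with hb
  have hapos : ∀ x, 0 < a x := fun x => div_pos (hθ x) (hU x)
  have hbpos : ∀ y, 0 < b y := fun y =>
    Finset.sum_pos (fun x _ => mul_pos (hK _ _) (hU _)) ⟨x₀, mem_univ _⟩
  have h1 := hyp a b hapos hbpos
  -- Step A
  have hA : ∑ x, ∑ y, N x y * a x * b y ≤ ∑ x, ∑ y, N x y * K x y := by
    have e1 : ∀ x, ∑ y, N x y * a x * b y = a x * ∑ x', U x' * T x x' := by
      intro x
      simp only [hb, hT, Finset.mul_sum]
      rw [Finset.sum_comm]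
      refine Finset.sum_congr rfl fun x' _ => Finset.sum_congr rfl fun y _ => by ring
    have e2 : ∀ x, a x * ∑ x', U x' * T x x' ≤ θ x * ∑ x', T x' x' := by
      intro x
      have : ∑ x', U x' * T x x' ≤ ∑ x', U x * T x' x' := by
        refine Finset.sum_le_sum fun x' _ => ?_
        have := hm x x'
        rw [← hd x']
        calc U x' * T x x' ≤ U x' * (U x * W x') := mul_le_mul_of_nonneg_left this (hU x').le
          _ = U x * (U x' * W x') := by ring
      calc a x * ∑ x', U x' * T x x' ≤ a x * ∑ x', U x * T x' x' :=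
            mul_le_mul_of_nonneg_left this (hapos x).le
        _ = θ x * ∑ x', T x' x' := by
            rw [← Finset.mul_sum, ha]
            field_simp [(hU x).ne']
    calc ∑ x, ∑ y, N x y * a x * b y = ∑ x, a x * ∑ x', U x' * T x x' :=
          Finset.sum_congr rfl fun x _ => e1 x
      _ ≤ ∑ x, θ x * ∑ x', T x' x' := Finset.sum_le_sum fun x _ => e2 x
      _ = ∑ x', T x' x' := by rw [← Finset.sum_mul, hθ1, one_mul]
  -- Step B
  have hB : 0 ≤ ∑ x, θ x * Real.log (a x) + ∑ y, η y * Real.log (b y) := by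
    have b1 : ∀ y, ∑ x', (θ x' * K x' y) * Real.log (U x' / θ x') ≤ Real.log (b y) := by
      intro y
      have := sum_mul_log_le univ (fun x' => θ x' * K x' y) (fun x' => U x' / θ x')
        (fun x' _ => (mul_pos (hθ _) (hK _ _)).le) (hK1 y) (fun x' _ => div_pos (hU _) (hθ _))
      refine this.trans (le_of_eq ?_)
      congr 1
      refine Finset.sum_congr rfl fun x' _ => ?_
      field_simp [(hθ x').ne']
    have b2 : ∑ y, η y * ∑ x', (θ x' * K x' y) * Real.log (U x' / θ x')
        ≤ ∑ y, η y * Real.log (b y) :=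
      Finset.sum_le_sum fun y _ => mul_le_mul_of_nonneg_left (b1 y) (hη y).le
    have b3 : ∑ y, η y * ∑ x', (θ x' * K x' y) * Real.log (U x' / θ x')
        = ∑ x', θ x' * Real.log (U x' / θ x') := by
      simp only [Finset.mul_sum]
      rw [Finset.sum_comm]
      refine Finset.sum_congr rfl fun x' _ => ?_
      have := hK2 x'
      calc ∑ y, η y * (θ x' * K x' y * Real.log (U x' / θ x'))
          = (∑ y, η y * K x' y) * (θ x' * Real.log (U x' / θ x')) := by
            rw [Finset.sum_mul]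
            refine Finset.sum_congr rfl fun y _ => by ring
        _ = _ := by rw [this, one_mul]
    have b4 : ∑ x, θ x * Real.log (a x) = - ∑ x', θ x' * Real.log (U x' / θ x') := by
      rw [← Finset.sum_neg_distrib]
      refine Finset.sum_congr rfl fun x _ => ?_
      rw [ha]
      simp only
      rw [Real.log_div (hθ x).ne' (hU x).ne', Real.log_div (hU x).ne' (hθ x).ne']
      ring
    linarith
  have hpos : 0 < ∑ x, ∑ y, N x y * a x * b y :=
    Finset.sum_pos (fun x _ => Finset.sum_pos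
      (fun y _ => mul_pos (mul_pos (hN _ _) (hapos _)) (hbpos _)) ⟨x₀, mem_univ _⟩)
      ⟨x₀, mem_univ _⟩
  have h2 := Real.log_le_log hpos hA
  linarith

end key

section graph

variable {α : Type*} [Fintype α] [LinearOrder α]
variable {V : Type*} [Fintype V] [DecidableEq V]

/-- Weight of a configuration. -/
def wt (φ : V → α → ℝ) (F : Finset (V × V)) (K : V × V → α → α → ℝ) (f : V → α) : ℝ :=
  (∏ v, φ v (f v)) * ∏ e ∈ F, K e (f e.1) (f e.2)

/-- Partition function. -/
def Zf (φ : V → α → ℝ) (F : Finset (V × V)) (K : V × V → α → α → ℝ) : ℝ :=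
  ∑ f : V → α, wt φ F K f

/-- Two-point function. -/
def twoPt (φ : V → α → ℝ) (F : Finset (V × V)) (K : V × V → α → α → ℝ) (u v : V) (x y : α) : ℝ :=
  ∑ f : V → α, if f u = x ∧ f v = y then wt φ F K f else 0

lemma wt_pos {φ : V → α → ℝ} {F : Finset (V × V)} {K : V × V → α → α → ℝ}
    (hφ : ∀ v x, 0 < φ v x) (hK : ∀ e ∈ F, ∀ x y, 0 < K e x y) (f : V → α) : 0 < wt φ F K f :=
  mul_pos (Finset.prod_pos fun v _ => hφ _ _) (Finset.prod_pos fun e he => hK e he _ _)

lemma wt_mul_le {φ : V → α → ℝ} {F : Finset (V × V)} {K : V × V → α → α → ℝ}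
    (hφ : ∀ v x, 0 < φ v x) (hK : ∀ e ∈ F, ∀ x y, 0 < K e x y) (hT : ∀ e ∈ F, TP2 (K e))
    (f g : V → α) : wt φ F K f * wt φ F K g ≤ wt φ F K (f ⊓ g) * wt φ F K (f ⊔ g) := by
  unfold wt
  have h1 : (∏ v, φ v (f v)) * (∏ v, φ v (g v))
      = (∏ v, φ v ((f ⊓ g) v)) * ∏ v, φ v ((f ⊔ g) v) := by
    rw [← Finset.prod_mul_distrib, ← Finset.prod_mul_distrib]
    exact Finset.prod_congr rfl fun v _ => mul_inf_sup_eq (φ v) (f v) (g v)
  have h2 : (∏ e ∈ F, K e (f e.1) (f e.2)) * (∏ e ∈ F, K e (g e.1) (g e.2))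
      ≤ (∏ e ∈ F, K e ((f ⊓ g) e.1) ((f ⊓ g) e.2)) * ∏ e ∈ F, K e ((f ⊔ g) e.1) ((f ⊔ g) e.2) := by
    rw [← Finset.prod_mul_distrib, ← Finset.prod_mul_distrib]
    refine Finset.prod_le_prod (fun e he => (mul_pos (hK e he _ _) (hK e he _ _)).le) ?_
    intro e he
    exact (hT e he).inf_sup _ _ _ _
  have h3 : 0 ≤ (∏ v, φ v (f v)) * (∏ v, φ v (g v)) :=
    (mul_pos (Finset.prod_pos fun v _ => hφ _ _) (Finset.prod_pos fun v _ => hφ _ _)).le
  calc (∏ v, φ v (f v)) * (∏ e ∈ F, K e (f e.1) (f e.2))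
        * ((∏ v, φ v (g v)) * ∏ e ∈ F, K e (g e.1) (g e.2))
      = ((∏ v, φ v (f v)) * (∏ v, φ v (g v)))
        * ((∏ e ∈ F, K e (f e.1) (f e.2)) * (∏ e ∈ F, K e (g e.1) (g e.2))) := by ring
    _ ≤ ((∏ v, φ v (f v)) * (∏ v, φ v (g v)))
        * ((∏ e ∈ F, K e ((f ⊓ g) e.1) ((f ⊓ g) e.2))
          * ∏ e ∈ F, K e ((f ⊔ g) e.1) ((f ⊔ g) e.2)) := mul_le_mul_of_nonneg_left h2 h3
    _ = _ := by rw [h1]; ring

lemma twoPt_TP2 {φ : V → α → ℝ} {F : Finset (V × V)} {K : V × V → α → α → ℝ}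
    (hφ : ∀ v x, 0 < φ v x) (hK : ∀ e ∈ F, ∀ x y, 0 < K e x y) (hT : ∀ e ∈ F, TP2 (K e))
    (u v : V) : TP2 (twoPt φ F K u v) := by
  intro x₁ x₂ y₁ y₂ hx hy
  unfold twoPt
  have hnn : ∀ (x y : α), (0 : (V → α) → ℝ) ≤
      fun f => if f u = x ∧ f v = y then wt φ F K f else 0 := by
    intro x y f
    simp only [Pi.zero_apply]
    split_ifs
    · exact (wt_pos hφ hK f).le
    · exact le_rfl
  refine four_functions_theorem_univ _ _ _ _ (hnn x₁ y₂) (hnn x₂ y₁) (hnn x₁ y₁) (hnn x₂ y₂) ?_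
  intro f g
  by_cases h1 : f u = x₁ ∧ f v = y₂
  · by_cases h2 : g u = x₂ ∧ g v = y₁
    · have h3 : (f ⊓ g) u = x₁ ∧ (f ⊓ g) v = y₁ := by
        simp [h1.1, h1.2, h2.1, h2.2, hx, hy]
      have h4 : (f ⊔ g) u = x₂ ∧ (f ⊔ g) v = y₂ := by
        simp [h1.1, h1.2, h2.1, h2.2, hx, hy]
      rw [if_pos h1, if_pos h2, if_pos h3, if_pos h4]
      exact wt_mul_le hφ hK hT f g
    · rw [if_neg h2, mul_zero]
      exact mul_nonneg (hnn _ _ _) (hnn _ _ _)
  · rw [if_neg h1, zero_mul]
    exact mul_nonneg (hnn _ _ _) (hnn _ _ _)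

lemma twoPt_pos {φ : V → α → ℝ} {F : Finset (V × V)} {K : V × V → α → α → ℝ}
    (hφ : ∀ v x, 0 < φ v x) (hK : ∀ e ∈ F, ∀ x y, 0 < K e x y) {u v : V} (huv : u ≠ v)
    (x y : α) : 0 < twoPt φ F K u v x y := by
  unfold twoPt
  refine Finset.sum_pos' (fun f _ => ?_) ⟨Function.update (fun _ => x) v y, mem_univ _, ?_⟩
  · split_ifs
    · exact (wt_pos hφ hK f).le
    · exact le_rfl
  · rw [if_pos]
    · exact wt_pos hφ hK _
    · simp [Function.update_of_ne huv]

lemma sum_wt_mul (φ : V → α → ℝ) (F : Finset (V × V)) (K : V × V → α → α → ℝ) (u v : V)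
    (g : α → α → ℝ) :
    ∑ f : V → α, wt φ F K f * g (f u) (f v) = ∑ x, ∑ y, twoPt φ F K u v x y * g x y := by
  unfold twoPt
  have key : ∀ f : V → α, wt φ F K f * g (f u) (f v)
      = ∑ x, ∑ y, (if f u = x ∧ f v = y then wt φ F K f else 0) * g x y := by
    intro f
    rw [Finset.sum_eq_single (f u), Finset.sum_eq_single (f v)]
    · simp
    · intro y _ hy
      simp [Ne.symm hy]
    · simp
    · intro x _ hx
      simp [Ne.symm hx]
    · simp
  calc ∑ f : V → α, wt φ F K f * g (f u) (f v)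
      = ∑ f : V → α, ∑ x, ∑ y, (if f u = x ∧ f v = y then wt φ F K f else 0) * g x y :=
        Finset.sum_congr rfl fun f _ => key f
    _ = ∑ x, ∑ f : V → α, ∑ y, (if f u = x ∧ f v = y then wt φ F K f else 0) * g x y :=
        Finset.sum_comm
    _ = ∑ x, ∑ y, ∑ f : V → α, (if f u = x ∧ f v = y then wt φ F K f else 0) * g x y :=
        Finset.sum_congr rfl fun x _ => Finset.sum_comm
    _ = _ := by simp only [Finset.sum_mul]

/-- Weighted logarithmic geometric mean. -/
noncomputable def LG (θ φ : α → ℝ) : ℝ := ∑ x, θ x * Real.log (φ x / θ x)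

/-- The hypotheses on one edge kernel relative to the reference marginals. -/
structure EdgeOK (θ η : α → ℝ) (K : α → α → ℝ) : Prop where
  pos : ∀ x y, 0 < K x y
  tp2 : TP2 K
  marg1 : ∀ y, ∑ x, θ x * K x y = 1
  marg2 : ∀ x, ∑ y, η y * K x y = 1

lemma wt_update (φ : V → α → ℝ) (F : Finset (V × V)) (K : V × V → α → α → ℝ) {u v : V}
    (huv : u ≠ v) (a b : α → ℝ) (f : V → α) :
    wt (Function.update (Function.update φ u (fun x => φ u x * a x)) v (fun y => φ v y * b y)) F K f
      = wt φ F K f * (a (f u) * b (f v)) := by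
  unfold wt
  have : ∏ w, (Function.update (Function.update φ u (fun x => φ u x * a x)) v
      (fun y => φ v y * b y)) w (f w)
      = (∏ w, φ w (f w)) * (a (f u) * b (f v)) := by
    have e : ∀ w, (Function.update (Function.update φ u (fun x => φ u x * a x)) v
        (fun y => φ v y * b y)) w (f w)
        = φ w (f w) * ((if w = u then a (f u) else 1) * (if w = v then b (f v) else 1)) := by
      intro w
      by_cases hwv : w = v
      · subst hwv
        simp [Ne.symm huv]
      · by_cases hwu : w = u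
        · subst hwu
          simp [hwv]
        · simp [hwv, hwu]
    simp only [e, Finset.prod_mul_distrib, Finset.prod_ite_eq', Finset.mem_univ, if_true]
  rw [this]
  ring

/-- **Bethe-type lower bound** for attractive pair models on a finite chain. -/
theorem bethe_bound (hα : HasMajorant α) (θ : V → α → ℝ) (hθ : ∀ v x, 0 < θ v x)
    (hθ1 : ∀ v, ∑ x, θ v x = 1) (K : V × V → α → α → ℝ) (F : Finset (V × V)) :
    (∀ e ∈ F, e.1 ≠ e.2 ∧ EdgeOK (θ e.1) (θ e.2) (K e)) →
    ∀ φ : V → α → ℝ, (∀ v x, 0 < φ v x) → ∑ v, LG (θ v) (φ v) ≤ Real.log (Zf φ F K) := by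
  classical
  induction F using Finset.induction_on with
  | empty =>
    intro _ φ hφ
    have hZ : Zf φ ∅ K = ∏ v, ∑ x, φ v x := by
      unfold Zf wt
      simp only [Finset.prod_empty, mul_one]
      rw [Finset.prod_univ_sum]
      simp
    rw [hZ, Real.log_prod]
    · refine Finset.sum_le_sum fun v _ => ?_
      have := sum_mul_log_le univ (θ v) (fun x => φ v x / θ v x) (fun x _ => (hθ v x).le) (hθ1 v)
        (fun x _ => div_pos (hφ _ _) (hθ _ _))
      refine this.trans (le_of_eq ?_)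
      congr 1
      refine Finset.sum_congr rfl fun x _ => ?_
      field_simp [(hθ v x).ne']
    · intro v _
      have hne : Nonempty α := by
        by_contra h
        rw [not_nonempty_iff] at h
        have := hθ1 v
        simp at this
      obtain ⟨x₀⟩ := hne
      exact (Finset.sum_pos (fun x _ => hφ v x) ⟨x₀, mem_univ _⟩).ne'
  | insert e F he ih =>
    intro hF φ hφ
    have hF' : ∀ e' ∈ F, e'.1 ≠ e'.2 ∧ EdgeOK (θ e'.1) (θ e'.2) (K e') :=
      fun e' he' => hF e' (Finset.mem_insert_of_mem he')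
    obtain ⟨huv, hOK⟩ := hF e (Finset.mem_insert_self _ _)
    have hKpos : ∀ e' ∈ F, ∀ x y, 0 < K e' x y := fun e' he' => (hF' e' he').2.pos
    have hKT : ∀ e' ∈ F, TP2 (K e') := fun e' he' => (hF' e' he').2.tp2
    have hZ : Zf φ (insert e F) K
        = ∑ x, ∑ y, twoPt φ F K e.1 e.2 x y * K e x y := by
      rw [← sum_wt_mul]
      unfold Zf
      refine Finset.sum_congr rfl fun f _ => ?_
      unfold wt
      rw [Finset.prod_insert he]
      ring
    rw [hZ]
    refine key_lemma hα (θ e.1) (θ e.2) (hθ _) (hθ _) (hθ1 _) _ _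
      (twoPt_pos hφ hKpos huv) (twoPt_TP2 hφ hKpos hKT _ _) hOK.pos hOK.tp2 hOK.marg1 hOK.marg2 _ ?_
    intro a b ha hb
    set φ' : V → α → ℝ := Function.update (Function.update φ e.1 (fun x => φ e.1 x * a x)) e.2
      (fun y => φ e.2 y * b y) with hφ'
    have hφ'pos : ∀ v x, 0 < φ' v x := by
      intro v x
      by_cases hv2 : v = e.2
      · subst hv2
        simp [hφ', mul_pos (hφ _ _) (hb _)]
      · by_cases hv1 : v = e.1
        · subst hv1
          simp [hφ', hv2, mul_pos (hφ _ _) (ha _)]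
        · simp [hφ', hv1, hv2, hφ]
    have h1 := ih hF' φ' hφ'pos
    have hZ' : Zf φ' F K = ∑ x, ∑ y, twoPt φ F K e.1 e.2 x y * a x * b y := by
      have := sum_wt_mul φ F K e.1 e.2 (fun x y => a x * b y)
      simp only [← mul_assoc] at this
      rw [← this]
      unfold Zf
      refine Finset.sum_congr rfl fun f _ => ?_
      rw [hφ', wt_update φ F K huv a b f]
      ring
    rw [hZ'] at h1
    refine le_trans (le_of_eq ?_) h1
    have hLG : ∀ v, LG (θ v) (φ' v) = LG (θ v) (φ v)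
        + (if v = e.1 then ∑ x, θ e.1 x * Real.log (a x) else 0)
        + (if v = e.2 then ∑ y, θ e.2 y * Real.log (b y) else 0) := by
      intro v
      by_cases hv2 : v = e.2
      · subst hv2
        have hne : e.2 ≠ e.1 := Ne.symm huv
        simp only [hφ', Function.update_self, if_neg hne, if_true, add_zero, LG]
        rw [← Finset.sum_add_distrib]
        refine Finset.sum_congr rfl fun x _ => ?_
        rw [mul_div_right_comm, Real.log_mul (div_pos (hφ _ _) (hθ _ _)).ne' (hb x).ne']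
        ring
      · by_cases hv1 : v = e.1
        · subst hv1
          simp only [hφ', Function.update_of_ne hv2, Function.update_self, if_neg hv2, if_true,
            add_zero, LG]
          rw [← Finset.sum_add_distrib]
          refine Finset.sum_congr rfl fun x _ => ?_
          rw [mul_div_right_comm, Real.log_mul (div_pos (hφ _ _) (hθ _ _)).ne' (ha x).ne']
          ring
        · simp only [hφ', Function.update_of_ne hv2, Function.update_of_ne hv1, if_neg hv1,
            if_neg hv2, add_zero]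
    simp only [hLG, Finset.sum_add_distrib, Finset.sum_ite_eq', Finset.mem_univ, if_true]

end graph

end Vale.Agent.Lib.P050
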