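import Vale.Agent.Lib.P050.Cograph

set_option linter.unusedSectionVars false
set_option linter.unusedVariables false

open Finset

namespace Vale.Agent.Lib.P050

section

variable {V : Type*} [Fintype V]
variable {W : Type*} [Fintype W]

lemma dens_adjw [DecidableEq W] (G : SimpleGraph W) [DecidableRel G.Adj] :
    dens (adjw G) (ind univ) = 2 * (G.edgeSet.ncard : ℝ) := by
  have h1 : dens (adjw G) (ind univ) = ∑ i, (G.degree i : ℝ) := by
    unfold dens
    refine Finset.sum_congr rfl fun i _ => ?_
    simp only [ind, adjw, Finset.mem_univ, if_true, one_mul]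
    rw [Finset.sum_boole, ← SimpleGraph.card_neighborFinset_eq_degree,
      SimpleGraph.neighborFinset_eq_filter]
  rw [h1, ← Nat.cast_sum, SimpleGraph.sum_degrees_eq_twice_card_edges,
    Set.ncard_eq_toFinset_card' G.edgeSet]
  simp [SimpleGraph.edgeFinset]

theorem sidorenko_noP4 [Nonempty W] (H : SimpleGraph V) (G : SimpleGraph W)
    (hH : H.Colorable 2) (hG : ∀ a b c d : W, G.Adj a b → G.Adj b c → G.Adj c d →
      ¬ G.Adj a c → ¬ G.Adj a d → ¬ G.Adj b d → False) :
    ((2 * (G.edgeSet.ncard : ℝ)) / (Fintype.card W : ℝ) ^ 2) ^ H.edgeSet.ncard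
      ≤ (Nat.card (H →g G) : ℝ) / (Fintype.card W : ℝ) ^ Fintype.card V := by
  classical
  obtain ⟨C⟩ := hH
  let side : V → Bool := fun v => decide (C v = 1)
  let E : Finset (V × V) :=
    univ.filter (fun e => H.Adj e.1 e.2 ∧ side e.1 = false ∧ side e.2 = true)
  have hE : ∀ e ∈ E, side e.1 = false ∧ side e.2 = true := fun e he =>
    (Finset.mem_filter.1 he).2.2
  have hEadj : ∀ e ∈ E, H.Adj e.1 e.2 := fun e he => (Finset.mem_filter.1 he).2.1
  have hor : ∀ a b, H.Adj a b → (a, b) ∈ E ∨ (b, a) ∈ E := by
    intro a b hab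
    have hne : C a ≠ C b := C.valid hab
    have h2 : ∀ x : Fin 2, x = 0 ∨ x = 1 := by decide
    rcases h2 (C a) with ha | ha <;> rcases h2 (C b) with hb | hb
    · exact absurd (ha.trans hb.symm) hne
    · left
      simp [E, side, hab, ha, hb]
    · right
      simp [E, side, hab.symm, ha, hb]
    · exact absurd (ha.trans hb.symm) hne
  have hno : NoP4 G.Adj univ := by
    intro a _ b _ c _ d _ _ _ _ _ _ _
    exact hG a b c d
  have good := good_of_noP4 side G _ univ rfl univ_nonempty hno E hE
  have hmass : mass (ind (univ : Finset W)) = (Fintype.card W : ℝ) := by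
    rw [mass_ind, Finset.card_univ]
  have hEcard : E.card = H.edgeSet.ncard := by
    rw [Set.ncard_eq_toFinset_card' H.edgeSet]
    refine Finset.card_bij (fun e _ => s(e.1, e.2)) ?_ ?_ ?_
    · intro e he
      simpa using hEadj e he
    · rintro ⟨a, b⟩ he ⟨c, d⟩ he' heq
      simp only [Sym2.eq_iff] at heq
      rcases heq with ⟨rfl, rfl⟩ | ⟨rfl, rfl⟩
      · rfl
      · have h1 := (hE _ he).1
        have h2 := (hE _ he').2
        simp only at h1 h2
        rw [h1] at h2
        exact absurd h2 (by simp)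
    · intro s hs
      induction s using Sym2.ind with
      | _ a b =>
        have hab : H.Adj a b := by simpa using hs
        rcases hor a b hab with h | h
        · exact ⟨(a, b), h, rfl⟩
        · exact ⟨(b, a), h, Sym2.eq_swap⟩
  have hZ : ZH (adjw G) (fun _ => ind (univ : Finset W)) E = (Nat.card (H →g G) : ℝ) := by
    unfold ZH
    have : ∀ f : V → W, (∏ v, ind (univ : Finset W) (f v)) * ∏ e ∈ E, adjw G (f e.1) (f e.2)
        = if (∀ e ∈ E, G.Adj (f e.1) (f e.2)) then 1 else 0 := by
      intro f
      simp only [ind, adjw, Finset.mem_univ, if_true, Finset.prod_const_one, one_mul]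
      rw [Finset.prod_ite_zero]
      simp
    rw [Finset.sum_congr rfl fun f _ => this f, Finset.sum_boole]
    congr 1
    rw [← Fintype.card_subtype, ← Nat.card_eq_fintype_card]
    refine Nat.card_congr ?_
    refine ⟨fun f => ⟨f.1, ?_⟩, fun φ => ⟨φ, fun e he => φ.map_rel (hEadj e he)⟩, ?_, ?_⟩
    · intro a b hab
      rcases hor a b hab with h | h
      · exact f.2 _ h
      · exact (f.2 _ h).symm
    · intro f
      rfl
    · intro φ
      rfl
  rw [hmass, dens_adjw, hEcard, hZ] at good
  have hW : (0 : ℝ) < (Fintype.card W : ℝ) := by exact_mod_cast Fintype.card_pos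
  rw [le_div_iff₀ (pow_pos hW _)]
  exact good

end

end Vale.Agent.Lib.P050
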