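import Vale.Agent.Lib.P050.Host

set_option linter.unusedSectionVars false
set_option linter.unusedVariables false

open Finset

namespace Vale.Agent.Lib.P050

section

variable {V : Type*} [Fintype V] [DecidableEq V]
variable {W : Type*} [Fintype W] [DecidableEq W]

/-- restriction of a weight to a finite set -/
def restr (a : W → ℝ) (U : Finset W) : W → ℝ := fun i => if i ∈ U then a i else 0

theorem good_of_hier (side : V → Bool) (w : W → W → ℝ) (hw : ∀ i j, 0 ≤ w i j)
    (hier : ∀ U : Finset W, 2 ≤ U.card → ∃ U₁ U₂ : Finset W, U₁.Nonempty ∧ U₂.Nonempty ∧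
      Disjoint U₁ U₂ ∧ U₁ ∪ U₂ = U ∧ ∃ c : ℝ, ∀ i ∈ U₁, ∀ j ∈ U₂, w i j = c ∧ w j i = c)
    (a : W → ℝ) (ha : ∀ i, 0 ≤ a i) :
    ∀ n : ℕ, ∀ U : Finset W, U.card = n → U.Nonempty → (∀ i ∈ U, a i ≠ 0) →
      Good side w (restr a U) := by
  intro n
  induction n using Nat.strong_induction_on with
  | _ n ih =>
    intro U hn hne hpos
    have hr0 : ∀ (U' : Finset W) i, 0 ≤ restr a U' i := by
      intro U' i
      simp only [restr]
      split_ifs
      · exact ha i
      · exact le_rfl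
    have hmass : ∀ U' : Finset W, U'.Nonempty → (∀ i ∈ U', a i ≠ 0) → 0 < mass (restr a U') := by
      intro U' hne' hp'
      obtain ⟨i, hi⟩ := hne'
      unfold mass
      refine Finset.sum_pos' (fun j _ => hr0 U' j) ⟨i, mem_univ _, ?_⟩
      simp only [restr, hi, if_true]
      exact lt_of_le_of_ne (ha i) (hp' i hi).symm
    have hmem : ∀ (U' : Finset W) i, restr a U' i ≠ 0 → i ∈ U' := by
      intro U' i hi
      by_contra hcon
      simp [restr, hcon] at hi
    by_cases h2 : 2 ≤ U.card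
    · obtain ⟨U₁, U₂, hn1, hn2, hd, hU, c, hc⟩ := hier U h2
      have hcard : U₁.card + U₂.card = U.card := by
        rw [← hU, Finset.card_union_of_disjoint hd]
      have c1 : 0 < U₁.card := Finset.card_pos.2 hn1
      have c2 : 0 < U₂.card := Finset.card_pos.2 hn2
      have s1 : U₁ ⊆ U := hU ▸ Finset.subset_union_left
      have s2 : U₂ ⊆ U := hU ▸ Finset.subset_union_right
      have G₁ := ih U₁.card (by omega) U₁ rfl hn1 (fun i hi => hpos i (s1 hi))
      have G₂ := ih U₂.card (by omega) U₂ rfl hn2 (fun i hi => hpos i (s2 hi))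
      have hind : restr a U = fun i => restr a U₁ i + restr a U₂ i := by
        funext i
        rw [← hU]
        simp only [restr, Finset.mem_union]
        by_cases h1 : i ∈ U₁
        · have : i ∉ U₂ := Finset.disjoint_left.1 hd h1
          simp [h1, this]
        · simp [h1]
      rw [hind]
      refine Good.combine side w hw (restr a U₁) (restr a U₂) (hr0 _) (hr0 _)
        (hmass U₁ hn1 (fun i hi => hpos i (s1 hi))) (hmass U₂ hn2 (fun i hi => hpos i (s2 hi)))
        c ?_ G₁ G₂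
      intro i j hi hj
      exact hc i (hmem _ _ hi) j (hmem _ _ hj)
    · have h1 : U.card = 1 := by
        have := Finset.card_pos.2 hne
        omega
      obtain ⟨i₀, rfl⟩ := Finset.card_eq_one.1 h1
      have : restr a ({i₀} : Finset W) = fun i => if i = i₀ then a i₀ else 0 := by
        funext i
        simp only [restr, Finset.mem_singleton]
        split_ifs with h
        · rw [h]
        · rfl
      rw [this]
      exact Good.single side w i₀ (a i₀)
        (lt_of_le_of_ne (ha i₀) (hpos i₀ (Finset.mem_singleton_self _)).symm)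

theorem good_of_hier' (side : V → Bool) (w : W → W → ℝ) (hw : ∀ i j, 0 ≤ w i j)
    (hier : ∀ U : Finset W, 2 ≤ U.card → ∃ U₁ U₂ : Finset W, U₁.Nonempty ∧ U₂.Nonempty ∧
      Disjoint U₁ U₂ ∧ U₁ ∪ U₂ = U ∧ ∃ c : ℝ, ∀ i ∈ U₁, ∀ j ∈ U₂, w i j = c ∧ w j i = c)
    (a : W → ℝ) (ha : ∀ i, 0 ≤ a i) (hm : 0 < mass a) : Good side w a := by
  have hU : (univ.filter fun i => a i ≠ 0).Nonempty := by
    obtain ⟨i, hi⟩ := exists_ne_zero_of_mass_pos a hm
    exact ⟨i, by simp [hi]⟩
  have := good_of_hier side w hw hier a ha _ (univ.filter fun i => a i ≠ 0) rfl hU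
    (fun i hi => (Finset.mem_filter.1 hi).2)
  have heq : restr a (univ.filter fun i => a i ≠ 0) = a := by
    funext i
    simp only [restr, Finset.mem_filter, Finset.mem_univ, true_and]
    split_ifs with h
    · rfl
    · simp only [not_not] at h
      exact h.symm
  rwa [heq] at this

end

section bip

variable {A B W : Type*} [Fintype A] [Fintype B] [Fintype W]
  [DecidableEq A] [DecidableEq B] [DecidableEq W]

/-- the embedding of `A × B` into pairs of vertices of `A ⊕ B` -/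
def emb : A × B ↪ (A ⊕ B) × (A ⊕ B) :=
  ⟨fun e => (Sum.inl e.1, Sum.inr e.2), by
    rintro ⟨a, b⟩ ⟨a', b'⟩ h
    simp only [Prod.mk.injEq, Sum.inl.injEq, Sum.inr.injEq] at h
    exact Prod.ext h.1 h.2⟩

@[simp] lemma emb_apply (e : A × B) :
    (emb e : (A ⊕ B) × (A ⊕ B)) = (Sum.inl e.1, Sum.inr e.2) := rfl

lemma sum_bip (w : W → W → ℝ) (φ : A ⊕ B → W → ℝ) (E : Finset (A × B)) :
    ∑ f : A ⊕ B → W, (∏ v, φ v (f v)) * ∏ e ∈ E.map emb, w (f e.1) (f e.2)
      = ∑ f : A → W, ∑ g : B → W, (∏ x, φ (Sum.inl x) (f x)) * (∏ y, φ (Sum.inr y) (g y))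
          * ∏ e ∈ E, w (f e.1) (g e.2) := by
  rw [← (Equiv.sumArrowEquivProdArrow A B W).symm.sum_comp, Fintype.sum_prod_type]
  refine Finset.sum_congr rfl fun f _ => Finset.sum_congr rfl fun g _ => ?_
  simp [Fintype.prod_sum_type, Finset.prod_map, Equiv.sumArrowEquivProdArrow]

lemma emb_side (E : Finset (A × B)) :
    ∀ e ∈ E.map (emb (A := A) (B := B)), Sum.isRight e.1 = false ∧ Sum.isRight e.2 = true := by
  intro e he
  rw [Finset.mem_map] at he
  obtain ⟨e', _, rfl⟩ := he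
  simp

theorem sidorenko_hier (E : Finset (A × B)) (w : W → W → ℝ) (hw : ∀ i j, 0 ≤ w i j)
    (hsym : ∀ i j, w i j = w j i)
    (hier : ∀ U : Finset W, 2 ≤ U.card → ∃ U₁ U₂ : Finset W, U₁.Nonempty ∧ U₂.Nonempty ∧
      Disjoint U₁ U₂ ∧ U₁ ∪ U₂ = U ∧ ∃ c : ℝ, ∀ i ∈ U₁, ∀ j ∈ U₂, w i j = c)
    (μ : W → ℝ) (hμ : ∀ i, 0 ≤ μ i) (hμ1 : ∑ i, μ i = 1) :
    (∑ i, ∑ j, μ i * μ j * w i j) ^ E.card
      ≤ ∑ f : A → W, ∑ g : B → W, (∏ x, μ (f x)) * (∏ y, μ (g y))
          * ∏ e ∈ E, w (f e.1) (g e.2) := by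
  have hier' : ∀ U : Finset W, 2 ≤ U.card → ∃ U₁ U₂ : Finset W, U₁.Nonempty ∧ U₂.Nonempty ∧
      Disjoint U₁ U₂ ∧ U₁ ∪ U₂ = U ∧ ∃ c : ℝ, ∀ i ∈ U₁, ∀ j ∈ U₂, w i j = c ∧ w j i = c := by
    intro U hU
    obtain ⟨U₁, U₂, h1, h2, h3, h4, c, hc⟩ := hier U hU
    exact ⟨U₁, U₂, h1, h2, h3, h4, c, fun i hi j hj => ⟨hc i hi j hj, by
      rw [hsym j i]; exact hc i hi j hj⟩⟩
  have hm : mass μ = 1 := hμ1
  have good := good_of_hier' (V := A ⊕ B) Sum.isRight w hw hier' μ hμ (by rw [hm]; exact one_pos)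
    (E.map emb) (emb_side E)
  rw [hm] at good
  simp only [one_pow, div_one, mul_one, Finset.card_map] at good
  unfold ZH at good
  rw [sum_bip] at good
  exact good

end bip

end Vale.Agent.Lib.P050
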