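import Vale.Agent.Lib.P050.TwoState

set_option linter.unusedSectionVars false
set_option linter.unusedVariables false

open Finset

namespace Vale.Agent.Lib.P050

section

variable {V : Type*} [Fintype V] [DecidableEq V]
variable {W : Type*} [Fintype W] [DecidableEq W]

/-- Weighted homomorphism sum with vertex dependent weights. -/
def ZH (w : W → W → ℝ) (φ : V → W → ℝ) (E : Finset (V × V)) : ℝ :=
  ∑ f : V → W, (∏ v, φ v (f v)) * ∏ e ∈ E, w (f e.1) (f e.2)

/-- total mass -/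
def mass (a : W → ℝ) : ℝ := ∑ i, a i

/-- weighted edge mass -/
def dens (w : W → W → ℝ) (a : W → ℝ) : ℝ := ∑ i, ∑ j, a i * a j * w i j

/-- The weighted host `(w, a)` satisfies Sidorenko's inequality for all edge sets that are
bipartite with respect to `side`. -/
def Good (side : V → Bool) (w : W → W → ℝ) (a : W → ℝ) : Prop :=
  ∀ E : Finset (V × V), (∀ e ∈ E, side e.1 = false ∧ side e.2 = true) →
    (dens w a / mass a ^ 2) ^ E.card * mass a ^ Fintype.card V ≤ ZH w (fun _ => a) E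

/-- mixing two maps according to a Boolean pattern -/
def mix (g : V → Bool) (f₁ f₂ : V → W) : V → W := fun v => if g v then f₁ v else f₂ v

lemma mix_mix (g : V → Bool) (f₁ f₂ : V → W) :
    mix g (mix g f₁ f₂) (mix g f₂ f₁) = f₁ ∧ mix g (mix g f₂ f₁) (mix g f₁ f₂) = f₂ := by
  constructor <;> funext v <;> simp only [mix] <;> split_ifs <;> rfl

/-- Factorisation of the pattern sum. -/
lemma factor (w : W → W → ℝ) (a₁ a₂ : W → ℝ) (g : V → Bool) (E₁ E₂ : Finset (V × V))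
    (h₁ : ∀ e ∈ E₁, g e.1 = true ∧ g e.2 = true) (h₂ : ∀ e ∈ E₂, g e.1 = false ∧ g e.2 = false) :
    ZH w (fun _ => a₁) E₁ * ZH w (fun _ => a₂) E₂
      = (∑ f : V → W, (∏ v, (if g v then a₁ (f v) else a₂ (f v)))
          * ((∏ e ∈ E₁, w (f e.1) (f e.2)) * ∏ e ∈ E₂, w (f e.1) (f e.2)))
        * ∏ v, (if g v then mass a₂ else mass a₁) := by
  classical
  have hk : ∏ v, (if g v then mass a₂ else mass a₁)
      = ∑ k : V → W, ∏ v, (if g v then a₂ (k v) else a₁ (k v)) := by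
    have := Finset.prod_univ_sum (fun _ : V => (univ : Finset W))
      (fun v i => if g v then a₂ i else a₁ i)
    simp only [Fintype.piFinset_univ] at this
    rw [← this]
    refine Finset.prod_congr rfl fun v _ => ?_
    split_ifs <;> rfl
  rw [hk]
  unfold ZH
  rw [Finset.sum_mul_sum, Finset.sum_mul_sum, ← Finset.sum_product', ← Finset.sum_product']
  let sw : (V → W) × (V → W) → (V → W) × (V → W) := fun q => (mix g q.1 q.2, mix g q.2 q.1)
  have hsw : Function.Involutive sw := by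
    intro q
    obtain ⟨e1, e2⟩ := mix_mix g q.1 q.2
    simp only [sw]
    rw [e1, e2]
  refine Finset.sum_equiv hsw.toPerm (by simp) ?_
  rintro ⟨f₁, f₂⟩ _
  simp only [Function.Involutive.coe_toPerm, sw]
  have p1 : (∏ v, a₁ (f₁ v)) * (∏ v, a₂ (f₂ v))
      = (∏ v, (if g v then a₁ (mix g f₁ f₂ v) else a₂ (mix g f₁ f₂ v)))
        * ∏ v, (if g v then a₂ (mix g f₂ f₁ v) else a₁ (mix g f₂ f₁ v)) := by
    rw [← Finset.prod_mul_distrib, ← Finset.prod_mul_distrib]
    refine Finset.prod_congr rfl fun v _ => ?_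
    simp only [mix]
    split_ifs
    · rfl
    · exact mul_comm _ _
  have p2 : ∏ e ∈ E₁, w (f₁ e.1) (f₁ e.2)
      = ∏ e ∈ E₁, w (mix g f₁ f₂ e.1) (mix g f₁ f₂ e.2) := by
    refine Finset.prod_congr rfl fun e he => ?_
    obtain ⟨s1, s2⟩ := h₁ e he
    simp [mix, s1, s2]
  have p3 : ∏ e ∈ E₂, w (f₂ e.1) (f₂ e.2)
      = ∏ e ∈ E₂, w (mix g f₁ f₂ e.1) (mix g f₁ f₂ e.2) := by
    refine Finset.prod_congr rfl fun e he => ?_
    obtain ⟨s1, s2⟩ := h₂ e he
    simp [mix, s1, s2]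
  calc (∏ v, a₁ (f₁ v)) * (∏ e ∈ E₁, w (f₁ e.1) (f₁ e.2))
        * ((∏ v, a₂ (f₂ v)) * ∏ e ∈ E₂, w (f₂ e.1) (f₂ e.2))
      = ((∏ v, a₁ (f₁ v)) * (∏ v, a₂ (f₂ v)))
        * ((∏ e ∈ E₁, w (f₁ e.1) (f₁ e.2)) * ∏ e ∈ E₂, w (f₂ e.1) (f₂ e.2)) := by ring
    _ = _ := by rw [p1, p2, p3]; ring

lemma prod_split (g : V → Bool) (E : Finset (V × V)) (F : V × V → ℝ) :
    ∏ e ∈ E, F e = (∏ e ∈ E.filter (fun e => g e.1 = true ∧ g e.2 = true), F e)
      * (∏ e ∈ E.filter (fun e => g e.1 = false ∧ g e.2 = false), F e)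
      * ∏ e ∈ E.filter (fun e => g e.1 ≠ g e.2), F e := by
  simp only [Finset.prod_filter, ← Finset.prod_mul_distrib]
  refine Finset.prod_congr rfl fun e _ => ?_
  cases g e.1 <;> cases g e.2 <;> simp

lemma pattern_bound (side : V → Bool) (w : W → W → ℝ) (a₁ a₂ : W → ℝ)
    (hm₁ : 0 < mass a₁) (hm₂ : 0 < mass a₂)
    (hd₁ : 0 ≤ dens w a₁) (hd₂ : 0 ≤ dens w a₂)
    (c : ℝ) (hc : 0 ≤ c) (hx : ∀ i j, a₁ i ≠ 0 → a₂ j ≠ 0 → w i j = c ∧ w j i = c)
    (G₁ : Good side w a₁) (G₂ : Good side w a₂) (E : Finset (V × V))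
    (hE : ∀ e ∈ E, side e.1 = false ∧ side e.2 = true) (g : V → Bool) :
    (∏ v, (if g v then mass a₁ else mass a₂))
        * ∏ e ∈ E, kap (dens w a₁ / mass a₁ ^ 2) (dens w a₂ / mass a₂ ^ 2) c (g e.1) (g e.2)
      ≤ ∑ f : V → W, (∏ v, (if g v then a₁ (f v) else a₂ (f v))) * ∏ e ∈ E, w (f e.1) (f e.2) := by
  classical
  set p₁ := dens w a₁ / mass a₁ ^ 2 with hp₁
  set p₂ := dens w a₂ / mass a₂ ^ 2 with hp₂
  have hp₁0 : 0 ≤ p₁ := div_nonneg hd₁ (pow_pos hm₁ 2).le
  have hp₂0 : 0 ≤ p₂ := div_nonneg hd₂ (pow_pos hm₂ 2).le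
  set E₁ := E.filter (fun e => g e.1 = true ∧ g e.2 = true) with hE₁
  set E₂ := E.filter (fun e => g e.1 = false ∧ g e.2 = false) with hE₂
  set Ex := E.filter (fun e => g e.1 ≠ g e.2) with hEx
  set Y : ℝ := ∑ f : V → W, (∏ v, (if g v then a₁ (f v) else a₂ (f v)))
          * ((∏ e ∈ E₁, w (f e.1) (f e.2)) * ∏ e ∈ E₂, w (f e.1) (f e.2)) with hY
  -- the kernel product
  have hkap : ∏ e ∈ E, kap p₁ p₂ c (g e.1) (g e.2) = p₁ ^ E₁.card * p₂ ^ E₂.card * c ^ Ex.card := by
    rw [prod_split g E]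
    congr 1
    · congr 1
      · rw [← Finset.prod_const]
        refine Finset.prod_congr rfl fun e he => ?_
        obtain ⟨s1, s2⟩ := (Finset.mem_filter.1 he).2
        simp [kap, s1, s2]
      · rw [← Finset.prod_const]
        refine Finset.prod_congr rfl fun e he => ?_
        obtain ⟨s1, s2⟩ := (Finset.mem_filter.1 he).2
        simp [kap, s1, s2]
    · rw [← Finset.prod_const]
      refine Finset.prod_congr rfl fun e he => ?_
      have s := (Finset.mem_filter.1 he).2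
      revert s
      cases g e.1 <;> cases g e.2 <;> simp [kap]
  -- the sum
  have hsum : ∑ f : V → W, (∏ v, (if g v then a₁ (f v) else a₂ (f v)))
      * ∏ e ∈ E, w (f e.1) (f e.2) = c ^ Ex.card * Y := by
    rw [hY, Finset.mul_sum]
    refine Finset.sum_congr rfl fun f _ => ?_
    by_cases h0 : ∃ v, (if g v then a₁ (f v) else a₂ (f v)) = 0
    · obtain ⟨v, hv⟩ := h0
      have : ∏ v, (if g v then a₁ (f v) else a₂ (f v)) = 0 :=
        Finset.prod_eq_zero (mem_univ v) hv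
      rw [this]
      ring
    · simp only [not_exists] at h0
      rw [prod_split g E]
      have : ∏ e ∈ Ex, w (f e.1) (f e.2) = c ^ Ex.card := by
        rw [← Finset.prod_const]
        refine Finset.prod_congr rfl fun e he => ?_
        have s := (Finset.mem_filter.1 he).2
        have n1 := h0 e.1
        have n2 := h0 e.2
        revert s n1 n2
        cases g e.1 <;> cases g e.2 <;> simp
        · intro n1 n2
          exact (hx _ _ n2 n1).2
        · intro n1 n2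
          exact (hx _ _ n1 n2).1
      rw [this]
      ring
  rw [hkap, hsum]
  have hsub₁ : ∀ e ∈ E₁, side e.1 = false ∧ side e.2 = true :=
    fun e he => hE e (Finset.mem_filter.1 he).1
  have hsub₂ : ∀ e ∈ E₂, side e.1 = false ∧ side e.2 = true :=
    fun e he => hE e (Finset.mem_filter.1 he).1
  have g₁ := G₁ E₁ hsub₁
  have g₂ := G₂ E₂ hsub₂
  have hf := factor w a₁ a₂ g E₁ E₂ (fun e he => (Finset.mem_filter.1 he).2)
    (fun e he => (Finset.mem_filter.1 he).2)
  rw [← hY] at hf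
  set P : ℝ := ∏ v, (if g v then mass a₁ else mass a₂) with hP
  set Q : ℝ := ∏ v, (if g v then mass a₂ else mass a₁) with hQ
  have hQpos : 0 < Q := Finset.prod_pos fun v _ => by split_ifs <;> assumption
  have hPQ : P * Q = mass a₁ ^ Fintype.card V * mass a₂ ^ Fintype.card V := by
    rw [hP, hQ, ← Finset.prod_mul_distrib, ← Finset.card_univ, ← Finset.prod_const,
      ← Finset.prod_const, ← Finset.prod_mul_distrib]
    refine Finset.prod_congr rfl fun v _ => ?_
    split_ifs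
    · rfl
    · exact mul_comm _ _
  have hmul : (p₁ ^ E₁.card * mass a₁ ^ Fintype.card V) * (p₂ ^ E₂.card * mass a₂ ^ Fintype.card V)
      ≤ Y * Q := by
    rw [← hf]
    exact mul_le_mul g₁ g₂ (mul_nonneg (pow_nonneg hp₂0 _) (pow_pos hm₂ _).le)
      (le_trans (mul_nonneg (pow_nonneg hp₁0 _) (pow_pos hm₁ _).le) g₁)
  have hY' : P * (p₁ ^ E₁.card * p₂ ^ E₂.card) ≤ Y := by
    have : (P * (p₁ ^ E₁.card * p₂ ^ E₂.card)) * Q ≤ Y * Q := by
      calc (P * (p₁ ^ E₁.card * p₂ ^ E₂.card)) * Q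
          = (p₁ ^ E₁.card * p₂ ^ E₂.card) * (P * Q) := by ring
        _ = (p₁ ^ E₁.card * mass a₁ ^ Fintype.card V)
            * (p₂ ^ E₂.card * mass a₂ ^ Fintype.card V) := by rw [hPQ]; ring
        _ ≤ _ := hmul
    exact le_of_mul_le_mul_right this hQpos
  calc P * (p₁ ^ E₁.card * p₂ ^ E₂.card * c ^ Ex.card)
      = c ^ Ex.card * (P * (p₁ ^ E₁.card * p₂ ^ E₂.card)) := by ring
    _ ≤ c ^ Ex.card * Y := mul_le_mul_of_nonneg_left hY' (pow_nonneg hc _)

lemma dens_nonneg (w : W → W → ℝ) (hw : ∀ i j, 0 ≤ w i j) (a : W → ℝ) (ha : ∀ i, 0 ≤ a i) :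
    0 ≤ dens w a :=
  Finset.sum_nonneg fun i _ => Finset.sum_nonneg fun j _ =>
    mul_nonneg (mul_nonneg (ha i) (ha j)) (hw i j)

lemma exists_ne_zero_of_mass_pos (a : W → ℝ) (h : 0 < mass a) : ∃ i, a i ≠ 0 := by
  by_contra hcon
  simp only [not_exists, not_not] at hcon
  simp [mass, hcon] at h

/-- Substitution: two good hosts joined by a constant are good. -/
theorem Good.combine (side : V → Bool) (w : W → W → ℝ) (hw : ∀ i j, 0 ≤ w i j) (a₁ a₂ : W → ℝ)
    (ha₁ : ∀ i, 0 ≤ a₁ i) (ha₂ : ∀ i, 0 ≤ a₂ i) (hm₁ : 0 < mass a₁) (hm₂ : 0 < mass a₂)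
    (c : ℝ) (hx : ∀ i j, a₁ i ≠ 0 → a₂ j ≠ 0 → w i j = c ∧ w j i = c)
    (G₁ : Good side w a₁) (G₂ : Good side w a₂) : Good side w (fun i => a₁ i + a₂ i) := by
  classical
  intro E hE
  have hc : 0 ≤ c := by
    obtain ⟨i, hi⟩ := exists_ne_zero_of_mass_pos a₁ hm₁
    obtain ⟨j, hj⟩ := exists_ne_zero_of_mass_pos a₂ hm₂
    rw [← (hx i j hi hj).1]
    exact hw i j
  have hmass : mass (fun i => a₁ i + a₂ i) = mass a₁ + mass a₂ := by
    simp [mass, Finset.sum_add_distrib]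
  have hcross : ∀ i j, a₁ i * a₂ j * w i j = a₁ i * a₂ j * c ∧ a₂ j * a₁ i * w j i = a₂ j * a₁ i * c := by
    intro i j
    by_cases hi : a₁ i = 0
    · simp [hi]
    · by_cases hj : a₂ j = 0
      · simp [hj]
      · obtain ⟨e1, e2⟩ := hx i j hi hj
        rw [e1, e2]
        exact ⟨rfl, rfl⟩
  have hdens : dens w (fun i => a₁ i + a₂ i)
      = dens w a₁ + dens w a₂ + 2 * mass a₁ * mass a₂ * c := by
    have e : ∀ i j, (a₁ i + a₂ i) * (a₁ j + a₂ j) * w i j
        = a₁ i * a₁ j * w i j + a₂ i * a₂ j * w i j + a₁ i * a₂ j * c + a₂ i * a₁ j * c := by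
      intro i j
      have h1 := (hcross i j).1
      have h2 := (hcross j i).2
      calc (a₁ i + a₂ i) * (a₁ j + a₂ j) * w i j
          = a₁ i * a₁ j * w i j + a₂ i * a₂ j * w i j + a₁ i * a₂ j * w i j
            + a₂ i * a₁ j * w i j := by ring
        _ = _ := by rw [h1, h2]
    simp only [dens, e, Finset.sum_add_distrib]
    have s1 : ∑ i, ∑ j, a₁ i * a₂ j * c = mass a₁ * mass a₂ * c := by
      simp only [mass, Finset.sum_mul, Finset.mul_sum]
      exact Finset.sum_comm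
    have s2 : ∑ i, ∑ j, a₂ i * a₁ j * c = mass a₁ * mass a₂ * c := by
      rw [mul_comm (mass a₁)]
      simp only [mass, Finset.sum_mul, Finset.mul_sum]
      exact Finset.sum_comm
    rw [s1, s2]
    ring
  have hexp : ZH w (fun _ => fun i => a₁ i + a₂ i) E
      = ∑ g : V → Bool, ∑ f : V → W, (∏ v, (if g v then a₁ (f v) else a₂ (f v)))
          * ∏ e ∈ E, w (f e.1) (f e.2) := by
    unfold ZH
    rw [Finset.sum_comm]
    refine Finset.sum_congr rfl fun f _ => ?_
    rw [← Finset.sum_mul]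
    congr 1
    have := Finset.prod_univ_sum (fun _ : V => (univ : Finset Bool))
      (fun v b => if b then a₁ (f v) else a₂ (f v))
    simp only [Fintype.piFinset_univ, Fintype.sum_bool] at this
    simpa using this
  rw [hexp, hmass, hdens]
  have h2 := two_state (mass a₁) (mass a₂) (dens w a₁ / mass a₁ ^ 2) (dens w a₂ / mass a₂ ^ 2) c
    hm₁ hm₂ (div_nonneg (dens_nonneg w hw a₁ ha₁) (pow_pos hm₁ 2).le)
    (div_nonneg (dens_nonneg w hw a₂ ha₂) (pow_pos hm₂ 2).le) hc side E hE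
  have e3 : mass a₁ ^ 2 * (dens w a₁ / mass a₁ ^ 2) + 2 * mass a₁ * mass a₂ * c
      + mass a₂ ^ 2 * (dens w a₂ / mass a₂ ^ 2)
      = dens w a₁ + dens w a₂ + 2 * mass a₁ * mass a₂ * c := by
    have := hm₁.ne'
    have := hm₂.ne'
    field_simp
    ring
  rw [e3] at h2
  refine h2.trans (Finset.sum_le_sum fun g _ => ?_)
  exact pattern_bound side w a₁ a₂ hm₁ hm₂ (dens_nonneg w hw a₁ ha₁) (dens_nonneg w hw a₂ ha₂) c hc
    hx G₁ G₂ E hE g

/-- A single weighted point is good. -/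
theorem Good.single (side : V → Bool) (w : W → W → ℝ) (i₀ : W) (t : ℝ) (ht : 0 < t) :
    Good side w (fun i => if i = i₀ then t else 0) := by
  classical
  intro E hE
  have hmass : mass (fun i => if i = i₀ then t else 0) = t := by simp [mass]
  have hdens : dens w (fun i => if i = i₀ then t else 0) = t * t * w i₀ i₀ := by
    simp [dens]
  have hZ : ZH w (fun _ : V => fun i => if i = i₀ then t else 0) E
      = t ^ Fintype.card V * w i₀ i₀ ^ E.card := by
    unfold ZH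
    rw [Finset.sum_eq_single (fun _ => i₀)]
    · simp
    · intro f _ hf
      have : ∃ v, f v ≠ i₀ := by
        by_contra hcon
        simp only [not_exists, not_not] at hcon
        exact hf (funext hcon)
      obtain ⟨v, hv⟩ := this
      rw [Finset.prod_eq_zero (mem_univ v) (by simp [hv]), zero_mul]
    · simp
  rw [hmass, hdens, hZ]
  have : t * t * w i₀ i₀ / t ^ 2 = w i₀ i₀ := by
    field_simp
  rw [this, mul_comm]

end

end Vale.Agent.Lib.P050
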