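import Vale.Agent.Lib.P050.Core

/-!
# P050 subtask T1: every finite chain has the majorant property

Blueprint.  Let `T` be positive and TP2 on `Fin (n+1)`.  Put `c k = ⟨min k n, _⟩ : Fin (n+1)`
(monotone in `k : ℕ`), `T' i j = T (c i) (c j)` (positive, TP2 on `ℕ`), and define `r : ℕ → ℝ` by
`r 0 = 1`, `r (k+1) = r k * T' (k+1) (k+1) / T' k (k+1)`  (all `r k > 0`).
* (1) `∀ i d, T' i (i+d) * r (i+d) ≤ r i * T' (i+d) (i+d)`   (induction on `d`, the step uses TP2 with
  rows `i ≤ i+d`, columns `i+d ≤ i+d+1`:  `T' i (j+1) * T' j j ≤ T' i j * T' j (j+1)`).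
* (2) `∀ i d, T' (i+d) i * r i ≤ r (i+d) * T' i i`   (induction on `d`, the step uses TP2 with
  rows `j ≤ j+1`, columns `i ≤ j+1`:  `T' j (j+1) * T' (j+1) i ≤ T' j i * T' (j+1) (j+1)`).
Then `U x = r x.val`, `W x = T x x / r x.val` work: `T x x' ≤ U x * W x'` is
`T x x' * r x' ≤ r x * T x' x'`, which is (1) if `x ≤ x'` and (2) if `x' ≤ x`.
`Fin 0` is trivial.  Transfer along an order isomorphism, and use
`Fintype.orderIsoFinOfCardEq α rfl : Fin (Fintype.card α) ≃o α`.
-/

open Finset

namespace Vale.Agent.Lib.P050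

/-- the ratio sequence of a kernel on the naturals -/
noncomputable def ratioSeq (T : ℕ → ℕ → ℝ) : ℕ → ℝ
  | 0 => 1
  | (k + 1) => ratioSeq T k * T (k + 1) (k + 1) / T k (k + 1)

lemma ratioSeq_pos {T : ℕ → ℕ → ℝ} (hT : ∀ x y, 0 < T x y) : ∀ k, 0 < ratioSeq T k
  | 0 => by
      unfold ratioSeq
      exact one_pos
  | (k + 1) => by
      unfold ratioSeq
      exact div_pos (mul_pos (ratioSeq_pos hT k) (hT _ _)) (hT _ _)

lemma ratioSeq_succ_mul {T : ℕ → ℕ → ℝ} (hT : ∀ x y, 0 < T x y) (k : ℕ) :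
    ratioSeq T (k + 1) * T k (k + 1) = ratioSeq T k * T (k + 1) (k + 1) := by
  rw [ratioSeq]
  exact div_mul_cancel₀ _ (hT _ _).ne'

lemma ratioSeq_up {T : ℕ → ℕ → ℝ} (hT : ∀ x y, 0 < T x y) (h2 : TP2 T) (i : ℕ) :
    ∀ d, T i (i + d) * ratioSeq T (i + d) ≤ ratioSeq T i * T (i + d) (i + d)
  | 0 => by
      rw [add_zero, mul_comm]
  | (d + 1) => by
      have ih := ratioSeq_up hT h2 i d
      rw [← add_assoc]
      set j := i + d with hj
      have t := h2 i j j (j + 1) (by omega) (by omega)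
      have e := ratioSeq_succ_mul hT j
      have hr := ratioSeq_pos hT j
      -- first: `T i (j+1) * r j ≤ r i * T j (j+1)`
      have s1 : T i (j + 1) * ratioSeq T j ≤ ratioSeq T i * T j (j + 1) := by
        refine le_of_mul_le_mul_right ?_ (hT j j)
        calc T i (j + 1) * ratioSeq T j * T j j = (T i (j + 1) * T j j) * ratioSeq T j := by ring
          _ ≤ (T i j * T j (j + 1)) * ratioSeq T j := mul_le_mul_of_nonneg_right t hr.le
          _ = (T i j * ratioSeq T j) * T j (j + 1) := by ring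
          _ ≤ (ratioSeq T i * T j j) * T j (j + 1) := mul_le_mul_of_nonneg_right ih (hT _ _).le
          _ = ratioSeq T i * T j (j + 1) * T j j := by ring
      refine le_of_mul_le_mul_right ?_ (hT j (j + 1))
      calc T i (j + 1) * ratioSeq T (j + 1) * T j (j + 1)
          = T i (j + 1) * (ratioSeq T (j + 1) * T j (j + 1)) := by ring
        _ = (T i (j + 1) * ratioSeq T j) * T (j + 1) (j + 1) := by rw [e]; ring
        _ ≤ (ratioSeq T i * T j (j + 1)) * T (j + 1) (j + 1) :=
            mul_le_mul_of_nonneg_right s1 (hT _ _).le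
        _ = ratioSeq T i * T (j + 1) (j + 1) * T j (j + 1) := by ring

lemma ratioSeq_down {T : ℕ → ℕ → ℝ} (hT : ∀ x y, 0 < T x y) (h2 : TP2 T) (i : ℕ) :
    ∀ d, T (i + d) i * ratioSeq T i ≤ ratioSeq T (i + d) * T i i
  | 0 => by
      rw [add_zero, mul_comm]
  | (d + 1) => by
      have ih := ratioSeq_down hT h2 i d
      rw [← add_assoc]
      set j := i + d with hj
      have t := h2 j (j + 1) i (j + 1) (by omega) (by omega)
      have e := ratioSeq_succ_mul hT j
      have hr := ratioSeq_pos hT i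
      refine le_of_mul_le_mul_right ?_ (hT j (j + 1))
      calc T (j + 1) i * ratioSeq T i * T j (j + 1)
          = (T j (j + 1) * T (j + 1) i) * ratioSeq T i := by ring
        _ ≤ (T j i * T (j + 1) (j + 1)) * ratioSeq T i := mul_le_mul_of_nonneg_right t hr.le
        _ = (T j i * ratioSeq T i) * T (j + 1) (j + 1) := by ring
        _ ≤ (ratioSeq T j * T i i) * T (j + 1) (j + 1) :=
            mul_le_mul_of_nonneg_right ih (hT _ _).le
        _ = (ratioSeq T j * T (j + 1) (j + 1)) * T i i := by ring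
        _ = ratioSeq T (j + 1) * T i i * T j (j + 1) := by rw [← e]; ring

lemma ratioSeq_main {T : ℕ → ℕ → ℝ} (hT : ∀ x y, 0 < T x y) (h2 : TP2 T) (i j : ℕ) :
    T i j * ratioSeq T j ≤ ratioSeq T i * T j j := by
  rcases le_total i j with h | h
  · obtain ⟨d, rfl⟩ := Nat.exists_eq_add_of_le h
    exact ratioSeq_up hT h2 i d
  · obtain ⟨d, rfl⟩ := Nat.exists_eq_add_of_le h
    exact ratioSeq_down hT h2 j d

theorem hasMajorant_fin (n : ℕ) : HasMajorant (Fin n) := by
  cases n with
  | zero =>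
    intro T _ _
    exact ⟨fun _ => 1, fun _ => 1, fun x => x.elim0, fun x => x.elim0, fun x => x.elim0,
      fun x => x.elim0⟩
  | succ n =>
    intro T hT h2
    let c : ℕ → Fin (n + 1) := fun k => ⟨min k n, by omega⟩
    have hc : ∀ a b, a ≤ b → c a ≤ c b := by
      intro a b hab
      change min a n ≤ min b n
      omega
    have hcv : ∀ x : Fin (n + 1), c x.val = x := by
      intro x
      apply Fin.ext
      change min x.val n = x.val
      omega
    let T' : ℕ → ℕ → ℝ := fun i j => T (c i) (c j)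
    have hT' : ∀ x y, 0 < T' x y := fun x y => hT _ _
    have h2' : TP2 T' := fun x x' y y' hx hy => h2 _ _ _ _ (hc _ _ hx) (hc _ _ hy)
    have hr := ratioSeq_pos hT'
    refine ⟨fun x => ratioSeq T' x.val, fun x => T x x / ratioSeq T' x.val, fun x => hr _,
      fun x => div_pos (hT _ _) (hr _), fun x => mul_div_cancel₀ _ (hr _).ne', fun x x' => ?_⟩
    have h := ratioSeq_main hT' h2' x.val x'.val
    simp only [T', hcv] at h
    rw [← mul_div_assoc, le_div_iff₀ (hr _)]
    exact h

theorem HasMajorant.of_orderIso {α β : Type*} [LinearOrder α] [LinearOrder β] (e : α ≃o β)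
    (h : HasMajorant β) : HasMajorant α := by
  intro T hT h2
  obtain ⟨U, W, hU, hW, hd, hm⟩ := h (fun x y => T (e.symm x) (e.symm y)) (fun x y => hT _ _)
    (fun x x' y y' hx hy => h2 _ _ _ _ (e.symm.monotone hx) (e.symm.monotone hy))
  refine ⟨fun x => U (e x), fun x => W (e x), fun x => hU _, fun x => hW _, fun x => ?_,
    fun x x' => ?_⟩
  · have := hd (e x)
    simpa using this
  · have := hm (e x) (e x')
    simpa using this

theorem hasMajorant_all (α : Type*) [Fintype α] [LinearOrder α] : HasMajorant α :=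
  HasMajorant.of_orderIso (Fintype.orderIsoFinOfCardEq α rfl).symm (hasMajorant_fin _)

end Vale.Agent.Lib.P050
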