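import Vale.Agent.Lib.P050.Core

open Finset

namespace Vale.Agent.Lib.P050

lemma hasMajorant_bool : HasMajorant Bool := by
  intro T hT hTP
  refine ⟨fun x => if x then T true true / T false true else 1,
    fun x => if x then T false true else T false false, ?_, ?_, ?_, ?_⟩
  · intro x
    cases x
    · simp
    · simpa using div_pos (hT _ _) (hT _ _)
  · intro x
    cases x <;> simp [hT]
  · intro x
    cases x
    · simp
    · have := (hT false true).ne'
      simp
      field_simp
  · intro x x'
    have h := hTP false true false true (by decide) (by decide)
    have h0 := hT false true
    cases x <;> cases x'
    · simp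
    · simp
    · simp
      rw [div_mul_eq_mul_div, le_div_iff₀ h0]
      linarith
    · have := (hT false true).ne'
      simp
      field_simp
      exact le_rfl

end Vale.Agent.Lib.P050
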