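import Vale.Agent.Lib.P050.Weights

/-!
# P050 subtask T3: nonnegative TP2 kernels

`sidorenko_TP2_nn`: kernels `w ≥ 0`, using `sidorenko_TP2_w` (`Weights.lean`) as a black box.
If `w = 0` identically the claim is trivial (`E = ∅`: both sides are `1`, the right side by
`Finset.prod_univ_sum`; otherwise the left side is `0` and the right side is nonnegative).
Otherwise let `idx x = (univ.filter (· < x)).card` (strictly monotone) and
`G ε x x' = ε ^ ((idx x - idx x')^2).toNat` (exponent computed in `ℤ`; any equivalent form is fine),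
which for `0 < ε < 1` is positive and TP2
(`(i-j')^2 + (i'-j)^2 - (i-j)^2 - (i'-j')^2 = 2 (i'-i) (j'-j) ≥ 0`), and `G 0 x x' = if x = x' then 1 else 0`.
`w_ε x y = ∑ x', ∑ y', G ε x x' * w x' y' * G ε y y'` is positive, TP2 (`TP2.comp` from `Core.lean` twice;
it composes as `∑ y, N x y * K x' y`) and polynomial in `ε` with `w_0 = w`.
Apply `sidorenko_TP2_w` to `w_ε` for `0 < ε < 1` and let `ε → 0+`
(pattern: proof of `two_state` in `TwoState.lean`).
-/

set_option linter.unusedSectionVars false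
set_option linter.unusedVariables false

open Finset

namespace Vale.Agent.Lib.P050

variable {α : Type*} [Fintype α] [LinearOrder α]
variable {V : Type*} [Fintype V] [DecidableEq V]

/-- position of an element in the finite chain -/
def idx (x : α) : ℕ := (univ.filter (· < x)).card

lemma idx_strictMono : StrictMono (idx : α → ℕ) := by
  intro x y hxy
  unfold idx
  refine Finset.card_lt_card ?_
  rw [Finset.ssubset_iff_of_subset]
  · exact ⟨x, by simp [hxy], by simp⟩
  · intro z hz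
    simp only [Finset.mem_filter, Finset.mem_univ, true_and] at hz ⊢
    exact hz.trans hxy

/-- the exponent of the smoothing kernel -/
def gexp (x y : α) : ℕ := ((idx x : ℤ) - (idx y : ℤ)).natAbs ^ 2

lemma gexp_cast (x y : α) : ((gexp x y : ℕ) : ℤ) = ((idx x : ℤ) - (idx y : ℤ)) ^ 2 := by
  unfold gexp
  push_cast
  rw [sq_abs]

lemma gexp_eq_zero_iff (x y : α) : gexp x y = 0 ↔ x = y := by
  unfold gexp
  constructor
  · intro h
    have h1 : ((idx x : ℤ) - (idx y : ℤ)).natAbs = 0 := by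
      simpa using h
    have h2 : (idx x : ℤ) - (idx y : ℤ) = 0 := Int.natAbs_eq_zero.1 h1
    have h3 : idx x = idx y := by omega
    exact idx_strictMono.injective h3
  · rintro rfl
    simp

lemma gexp_le {x x' y y' : α} (hx : x ≤ x') (hy : y ≤ y') :
    gexp x y + gexp x' y' ≤ gexp x y' + gexp x' y := by
  have h1 : (idx x : ℤ) ≤ idx x' := by exact_mod_cast idx_strictMono.monotone hx
  have h2 : (idx y : ℤ) ≤ idx y' := by exact_mod_cast idx_strictMono.monotone hy
  have : ((gexp x y + gexp x' y' : ℕ) : ℤ) ≤ ((gexp x y' + gexp x' y : ℕ) : ℤ) := by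
    push_cast
    rw [gexp_cast, gexp_cast, gexp_cast, gexp_cast]
    nlinarith [mul_nonneg (sub_nonneg.2 h1) (sub_nonneg.2 h2)]
  exact_mod_cast this

/-- the smoothing kernel -/
def Gk (ε : ℝ) (x y : α) : ℝ := ε ^ gexp x y

lemma Gk_pos {ε : ℝ} (hε : 0 < ε) (x y : α) : 0 < Gk ε x y := pow_pos hε _

lemma Gk_TP2 {ε : ℝ} (hε : 0 < ε) (hε1 : ε ≤ 1) : TP2 (Gk ε : α → α → ℝ) := by
  intro x x' y y' hx hy
  unfold Gk
  rw [← pow_add, ← pow_add]
  exact pow_le_pow_of_le_one hε.le hε1 (gexp_le hx hy)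

lemma Gk_zero (x y : α) : Gk 0 x y = if x = y then 1 else 0 := by
  unfold Gk
  rw [zero_pow_eq]
  simp only [gexp_eq_zero_iff]

lemma TP2.swap {K : α → α → ℝ} (hK : TP2 K) : TP2 (fun x y => K y x) := by
  intro x x' y y' hx hy
  have := hK y y' x x' hy hx
  simp only
  linarith [mul_comm (K y' x) (K y x')]

/-- the smoothed kernel -/
def smooth (w : α → α → ℝ) (ε : ℝ) (x y : α) : ℝ :=
  ∑ x', Gk ε x x' * ∑ y', w x' y' * Gk ε y y'

lemma smooth_zero (w : α → α → ℝ) (x y : α) : smooth w 0 x y = w x y := by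
  unfold smooth
  simp [Gk_zero]

lemma smooth_TP2 {w : α → α → ℝ} (hw : ∀ x y, 0 ≤ w x y) (hwT : TP2 w) {ε : ℝ} (hε : 0 < ε)
    (hε1 : ε ≤ 1) : TP2 (smooth w ε) := by
  have hG0 : ∀ x y : α, 0 ≤ Gk ε x y := fun x y => (Gk_pos hε x y).le
  have h1 : TP2 (fun x' y => ∑ y', w x' y' * Gk ε y y') := TP2.comp hw hG0 hwT (Gk_TP2 hε hε1)
  have h2 := TP2.comp (N := Gk ε) (K := fun y x' => ∑ y', w x' y' * Gk ε y y') hG0
    (fun x y => Finset.sum_nonneg fun z _ => mul_nonneg (hw _ _) (hG0 _ _)) (Gk_TP2 hε hε1) h1.swap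
  exact h2

lemma smooth_pos {w : α → α → ℝ} (hw : ∀ x y, 0 ≤ w x y) {x₀ y₀ : α} (h0 : 0 < w x₀ y₀) {ε : ℝ}
    (hε : 0 < ε) (x y : α) : 0 < smooth w ε x y := by
  have hG0 : ∀ x y : α, 0 ≤ Gk ε x y := fun x y => (Gk_pos hε x y).le
  unfold smooth
  refine Finset.sum_pos' (fun x' _ => mul_nonneg (hG0 _ _)
    (Finset.sum_nonneg fun z _ => mul_nonneg (hw _ _) (hG0 _ _))) ⟨x₀, mem_univ _, ?_⟩
  refine mul_pos (Gk_pos hε _ _) ?_
  exact Finset.sum_pos' (fun z _ => mul_nonneg (hw _ _) (hG0 _ _))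
    ⟨y₀, mem_univ _, mul_pos h0 (Gk_pos hε _ _)⟩

theorem sidorenko_TP2_nn (μ ν : α → ℝ) (hμ : ∀ x, 0 ≤ μ x) (hν : ∀ x, 0 ≤ ν x)
    (hμ1 : ∑ x, μ x = 1) (hν1 : ∑ x, ν x = 1) (w : α → α → ℝ) (hw : ∀ x y, 0 ≤ w x y)
    (hwT : TP2 w) (side : V → Bool) (E : Finset (V × V))
    (hE : ∀ e ∈ E, side e.1 = false ∧ side e.2 = true) :
    (∑ x, ∑ y, μ x * ν y * w x y) ^ E.card
      ≤ ∑ f : V → α, (∏ v, (if side v then ν (f v) else μ (f v))) * ∏ e ∈ E, w (f e.1) (f e.2) := by
  classical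
  by_cases hz : ∀ x y, w x y = 0
  · by_cases hE0 : E = ∅
    · subst hE0
      simp only [Finset.card_empty, pow_zero, Finset.prod_empty, mul_one]
      have := Finset.prod_univ_sum (fun _ : V => (univ : Finset α))
        (fun v x => if side v then ν x else μ x)
      rw [Fintype.piFinset_univ] at this
      rw [← this]
      refine le_of_eq (Eq.symm (Finset.prod_eq_one fun v _ => ?_))
      cases side v <;> simp [hμ1, hν1]
    · have hc : E.card ≠ 0 := by
        rw [Ne, Finset.card_eq_zero]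
        exact hE0
      simp only [hz, mul_zero, Finset.sum_const_zero]
      rw [zero_pow hc]
      refine Finset.sum_nonneg fun f _ => mul_nonneg (Finset.prod_nonneg fun v _ => ?_)
        (Finset.prod_nonneg fun e _ => le_rfl)
      split_ifs
      · exact hν _
      · exact hμ _
  · simp only [not_forall] at hz
    obtain ⟨x₀, y₀, h0⟩ := hz
    have h0' : 0 < w x₀ y₀ := lt_of_le_of_ne (hw _ _) (Ne.symm h0)
    set L : ℝ → ℝ := fun ε => (∑ x, ∑ y, μ x * ν y * smooth w ε x y) ^ E.card with hL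
    set R : ℝ → ℝ := fun ε => ∑ f : V → α, (∏ v, (if side v then ν (f v) else μ (f v)))
      * ∏ e ∈ E, smooth w ε (f e.1) (f e.2) with hR
    have key : ∀ ε, ε ∈ Set.Ioo (0 : ℝ) 1 → L ε ≤ R ε := by
      intro ε hε
      exact sidorenko_TP2_w μ ν hμ hν hμ1 hν1 (smooth w ε) (smooth_pos hw h0' hε.1)
        (smooth_TP2 hw hwT hε.1 hε.2.le) side E hE
    have hLc : Continuous L := by
      simp only [hL, smooth, Gk]
      fun_prop
    have hRc : Continuous R := by
      simp only [hR, smooth, Gk]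
      fun_prop
    have hLt : Filter.Tendsto L (nhdsWithin 0 (Set.Ioi 0)) (nhds (L 0)) :=
      hLc.continuousAt.tendsto.mono_left nhdsWithin_le_nhds
    have hRt : Filter.Tendsto R (nhdsWithin 0 (Set.Ioi 0)) (nhds (R 0)) :=
      hRc.continuousAt.tendsto.mono_left nhdsWithin_le_nhds
    have hev : ∀ᶠ ε in nhdsWithin (0 : ℝ) (Set.Ioi 0), L ε ≤ R ε := by
      filter_upwards [Ioo_mem_nhdsGT (zero_lt_one' ℝ)] with ε hε using key ε hε
    have := le_of_tendsto_of_tendsto hLt hRt hev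
    simpa [hL, hR, smooth_zero] using this

end Vale.Agent.Lib.P050
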