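import Vale.Agent.Lib.P050.Rect

/-!
# P050 subtask T5: nonnegative kernels of rank at most two

Blueprint.  `w x y = a x * b y + c x * d y` with `a, b > 0`.  Order `X` by the key
`x ↦ toLex (c x / a x, Fintype.equivFin X x) : ℝ ×ₗ Fin _` (injective; `LinearOrder.lift'`), and `Y` by
`y ↦ toLex (d y / b y, Fintype.equivFin Y y)`.  Then `x ≤ x' → c x / a x ≤ c x' / a x'` etc., and
`w x y * w x' y' - w x y' * w x' y = (a x * c x' - a x' * c x) * (b y * d y' - b y' * d y) ≥ 0`.
Apply `sidorenko_rect` with these (local) linear orders, e.g. `letI : LinearOrder X := ...`.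
-/

set_option linter.unusedSectionVars false
set_option linter.unusedVariables false

open Finset

namespace Vale.Agent.Lib.P050

/-- A finite type can be linearly ordered so that a given real function is monotone. -/
lemma exists_linearOrder_monotone {X : Type*} [Fintype X] (k : X → ℝ) :
    ∃ L : LinearOrder X, ∀ x x' : X, L.le x x' → k x ≤ k x' := by
  classical
  let key : X → ℝ ×ₗ Fin (Fintype.card X) := fun x => toLex (k x, Fintype.equivFin X x)
  have hkey : Function.Injective key := by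
    intro x x' h
    have h1 : (k x, Fintype.equivFin X x) = (k x', Fintype.equivFin X x') := toLex.injective h
    exact (Fintype.equivFin X).injective (Prod.ext_iff.1 h1).2
  refine ⟨LinearOrder.lift' key hkey, ?_⟩
  intro x x' h
  have h1 : key x ≤ key x' := h
  rw [Prod.Lex.le_iff] at h1
  rcases h1 with h2 | h2
  · exact le_of_lt h2
  · exact le_of_eq h2.1

theorem sidorenko_rank2 {X Y A B : Type*} [Fintype X] [Fintype Y]
    [Fintype A] [Fintype B] [DecidableEq A] [DecidableEq B] (E : Finset (A × B))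
    (μ : X → ℝ) (ν : Y → ℝ) (hμ : ∀ x, 0 ≤ μ x) (hν : ∀ y, 0 ≤ ν y)
    (hμ1 : ∑ x, μ x = 1) (hν1 : ∑ y, ν y = 1) (a c : X → ℝ) (b d : Y → ℝ)
    (ha : ∀ x, 0 < a x) (hb : ∀ y, 0 < b y) (hw : ∀ x y, 0 ≤ a x * b y + c x * d y) :
    (∑ x, ∑ y, μ x * ν y * (a x * b y + c x * d y)) ^ E.card
      ≤ ∑ f : A → X, ∑ g : B → Y, (∏ i, μ (f i)) * (∏ j, ν (g j))
          * ∏ e ∈ E, (a (f e.1) * b (g e.2) + c (f e.1) * d (g e.2)) := by
  obtain ⟨LX, hLX⟩ := exists_linearOrder_monotone (fun x => c x / a x)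
  obtain ⟨LY, hLY⟩ := exists_linearOrder_monotone (fun y => d y / b y)
  refine sidorenko_rect E μ ν hμ hν hμ1 hν1 (fun x y => a x * b y + c x * d y) hw ?_
  intro x x' y y' hx hy
  have h1 : c x / a x ≤ c x' / a x' := hLX x x' hx
  have h2 : d y / b y ≤ d y' / b y' := hLY y y' hy
  rw [div_le_div_iff₀ (ha x) (ha x')] at h1
  rw [div_le_div_iff₀ (hb y) (hb y')] at h2
  nlinarith [mul_nonneg (sub_nonneg.2 h1) (sub_nonneg.2 h2)]

end Vale.Agent.Lib.P050
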