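import Vale.Agent.Lib.P050.NonnegK
import Vale.Agent.Lib.P050.Hier

/-!
# P050 subtask T4: rectangular TP2 kernels, bipartite graph given as `(A, B, E)`

Blueprint.  `X`, `Y` are nonempty (the weights sum to `1`).  Let `α = X ⊕ₗ Y` (`Lex (X ⊕ Y)`, a finite
linear order in which all of `X` is below all of `Y`), `xmax` the top of `X`, `ymin` the bottom of `Y`
(e.g. `Finset.univ.max'`, `min'`), `r : α → X` (`inl x ↦ x`, `inr _ ↦ xmax`), `s : α → Y`
(`inl _ ↦ ymin`, `inr y ↦ y`): both monotone.  `w' i j = w (r i) (s j)` is nonnegative and `TP2`.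
`μ' = (μ on inl, 0 on inr)`, `ν' = (0 on inl, ν on inr)`.
Apply `sidorenko_TP2_nn` with `V = A ⊕ B`, `side = Sum.isRight`, edge set `E.map emb`
(`emb`, `emb_side`, `sum_bip` are in `Hier.lean`).  Left side: the sums over `α` reduce to sums over
`X`, `Y`.  Right side: after `sum_bip`, in `∑ f' : A → α, (∏ a, μ' (f' a)) * Φ f'` only the `f'` with
values in `inl` survive, so it equals `∑ f : A → X, (∏ a, μ (f a)) * Φ (inl ∘ f)`
(a convenient route: `Finset.sum_subset`/`Finset.sum_image` along the injective map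
`f ↦ toLex ∘ Sum.inl ∘ f`, or `Fintype.sum_equiv` with `Equiv.sumArrowEquivProdArrow`-like tools).
-/

set_option linter.unusedSectionVars false
set_option linter.unusedVariables false

open Finset

namespace Vale.Agent.Lib.P050

/-- Sums over configurations weighted by a product weight supported on the range of an injection. -/
lemma sum_fun_embed {A X α : Type*} [Fintype A] [Fintype X] [Fintype α] [DecidableEq A]
    (ι : X → α) (hι : Function.Injective ι) (μ' : α → ℝ)
    (h0 : ∀ i, i ∉ Set.range ι → μ' i = 0) (Φ : (A → α) → ℝ) :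
    ∑ f' : A → α, (∏ a, μ' (f' a)) * Φ f'
      = ∑ f : A → X, (∏ a, μ' (ι (f a))) * Φ (fun a => ι (f a)) := by
  classical
  symm
  refine Finset.sum_of_injOn (fun f a => ι (f a)) ?_ ?_ ?_ ?_
  · intro f _ g _ hfg
    funext a
    exact hι (congrFun hfg a)
  · intro f _
    exact Finset.mem_coe.2 (Finset.mem_univ _)
  · intro f' _ hf'
    by_cases hall : ∀ a, f' a ∈ Set.range ι
    · exfalso
      choose f hf using hall
      exact hf' ⟨f, Finset.mem_coe.2 (Finset.mem_univ _), funext hf⟩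
    · simp only [not_forall] at hall
      obtain ⟨a, ha⟩ := hall
      rw [Finset.prod_eq_zero (Finset.mem_univ a) (h0 _ ha), zero_mul]
  · intro f _
    rfl

lemma sum_lex {X Y : Type*} [Fintype X] [Fintype Y] (F : Lex (X ⊕ Y) → ℝ) :
    ∑ i, F i = ∑ x, F (toLex (Sum.inl x)) + ∑ y, F (toLex (Sum.inr y)) := by
  rw [← Fintype.sum_sum_type (fun s => F (toLex s))]
  exact Fintype.sum_equiv ofLex _ _ fun i => rfl

theorem sidorenko_rect {X Y A B : Type*} [Fintype X] [LinearOrder X] [Fintype Y] [LinearOrder Y]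
    [Fintype A] [Fintype B] [DecidableEq A] [DecidableEq B] (E : Finset (A × B))
    (μ : X → ℝ) (ν : Y → ℝ) (hμ : ∀ x, 0 ≤ μ x) (hν : ∀ y, 0 ≤ ν y)
    (hμ1 : ∑ x, μ x = 1) (hν1 : ∑ y, ν y = 1) (w : X → Y → ℝ) (hw : ∀ x y, 0 ≤ w x y)
    (hT : ∀ x x' y y', x ≤ x' → y ≤ y' → w x y' * w x' y ≤ w x y * w x' y') :
    (∑ x, ∑ y, μ x * ν y * w x y) ^ E.card
      ≤ ∑ f : A → X, ∑ g : B → Y, (∏ a, μ (f a)) * (∏ b, ν (g b))
          * ∏ e ∈ E, w (f e.1) (g e.2) := by
  classical
  have hX : Nonempty X := by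
    by_contra h
    rw [not_nonempty_iff] at h
    simp at hμ1
  have hY : Nonempty Y := by
    by_contra h
    rw [not_nonempty_iff] at h
    simp at hν1
  set xmax : X := (univ : Finset X).max' univ_nonempty with hxmax
  set ymin : Y := (univ : Finset Y).min' univ_nonempty with hymin
  have hxm : ∀ x, x ≤ xmax := fun x => Finset.le_max' _ _ (mem_univ x)
  have hym : ∀ y, ymin ≤ y := fun y => Finset.min'_le _ _ (mem_univ y)
  let r : Lex (X ⊕ Y) → X := fun i => Sum.elim id (fun _ => xmax) (ofLex i)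
  let s : Lex (X ⊕ Y) → Y := fun i => Sum.elim (fun _ => ymin) id (ofLex i)
  have hr : Monotone r := by
    intro i j hij
    rcases i with x | y <;> rcases j with x' | y'
    · exact Sum.Lex.inl_le_inl_iff.1 hij
    · exact hxm _
    · exact absurd hij Sum.Lex.not_inr_le_inl
    · exact le_rfl
  have hs : Monotone s := by
    intro i j hij
    rcases i with x | y <;> rcases j with x' | y'
    · exact le_rfl
    · exact hym _
    · exact absurd hij Sum.Lex.not_inr_le_inl
    · exact Sum.Lex.inr_le_inr_iff.1 hij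
  let w' : Lex (X ⊕ Y) → Lex (X ⊕ Y) → ℝ := fun i j => w (r i) (s j)
  let μ' : Lex (X ⊕ Y) → ℝ := fun i => Sum.elim μ (fun _ => 0) (ofLex i)
  let ν' : Lex (X ⊕ Y) → ℝ := fun i => Sum.elim (fun _ => 0) ν (ofLex i)
  have hμ' : ∀ i, 0 ≤ μ' i := by
    intro i
    rcases i with x | y
    · exact hμ x
    · exact le_rfl
  have hν' : ∀ i, 0 ≤ ν' i := by
    intro i
    rcases i with x | y
    · exact le_rfl
    · exact hν y
  have hμ'1 : ∑ i, μ' i = 1 := by
    rw [sum_lex]
    simpa [μ'] using hμ1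
  have hν'1 : ∑ i, ν' i = 1 := by
    rw [sum_lex]
    simpa [ν'] using hν1
  have hw'T : TP2 w' := fun i i' j j' hi hj => hT _ _ _ _ (hr hi) (hs hj)
  have main := sidorenko_TP2_nn (V := A ⊕ B) μ' ν' hμ' hν' hμ'1 hν'1 w' (fun i j => hw _ _) hw'T
    Sum.isRight (E.map emb) (emb_side E)
  have hL : ∑ i, ∑ j, μ' i * ν' j * w' i j = ∑ x, ∑ y, μ x * ν y * w x y := by
    rw [sum_lex]
    simp only [sum_lex (fun j => _ * ν' j * _)]
    simp [μ', ν', w', r, s]
  have hbip := sum_bip w' (fun v i => if Sum.isRight v then ν' i else μ' i) E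
  simp only [Sum.isRight_inl, Sum.isRight_inr, if_true, Bool.false_eq_true, if_false] at hbip
  rw [hL, Finset.card_map, hbip] at main
  refine main.trans (le_of_eq ?_)
  have e1 : ∑ f : A → Lex (X ⊕ Y), ∑ g : B → Lex (X ⊕ Y),
        (∏ x, μ' (f x)) * (∏ y, ν' (g y)) * ∏ e ∈ E, w' (f e.1) (g e.2)
      = ∑ f : A → Lex (X ⊕ Y), (∏ x, μ' (f x)) * ∑ g : B → Lex (X ⊕ Y),
        (∏ y, ν' (g y)) * ∏ e ∈ E, w' (f e.1) (g e.2) := by
    refine Finset.sum_congr rfl fun f _ => ?_
    rw [Finset.mul_sum]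
    refine Finset.sum_congr rfl fun g _ => by ring
  rw [e1, sum_fun_embed (fun x : X => (toLex (Sum.inl x) : Lex (X ⊕ Y)))
    (fun x x' h => Sum.inl_injective (toLex.injective h)) μ' ?_]
  · refine Finset.sum_congr rfl fun f _ => ?_
    rw [sum_fun_embed (fun y : Y => (toLex (Sum.inr y) : Lex (X ⊕ Y)))
      (fun y y' h => Sum.inr_injective (toLex.injective h)) ν' ?_, Finset.mul_sum]
    · refine Finset.sum_congr rfl fun g _ => ?_
      simp only [μ', ν', w', r, s, ofLex_toLex, Sum.elim_inl, Sum.elim_inr, id]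
      ring
    · intro i hi
      rcases i with x | y
      · rfl
      · exact absurd ⟨y, rfl⟩ hi
  · intro i hi
    rcases i with x | y
    · exact absurd ⟨x, rfl⟩ hi
    · rfl

end Vale.Agent.Lib.P050
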