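import Vale.Agent.Lib.P050.Core

set_option linter.unusedSectionVars false
set_option linter.unusedVariables false

open Finset

namespace Vale.Agent.Lib.P050

section

variable {α : Type*} [Fintype α] [LinearOrder α]

lemma LG_bound (μ d : α → ℝ) (p : ℝ) (hp : 0 < p) (hμ : ∀ x, 0 < μ x) (hμ1 : ∑ x, μ x = 1)
    (hd : ∀ x, 0 < d x) (hpd : ∑ x, μ x * d x = p) (k : ℕ) :
    (k : ℝ) * Real.log p
      ≤ LG (if k = 0 then μ else fun x => μ x * d x / p) (fun x => μ x * d x ^ k) := by
  rcases Nat.eq_zero_or_pos k with hk | hk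
  · subst hk
    simp only [LG, if_true, pow_zero, mul_one, Nat.cast_zero, zero_mul]
    refine le_of_eq (Eq.symm (Finset.sum_eq_zero fun x _ => ?_))
    rw [div_self (hμ x).ne', Real.log_one, mul_zero]
  · have hk0 : k ≠ 0 := hk.ne'
    simp only [LG, if_neg hk0]
    have hθ1 : ∑ x, μ x * d x / p = 1 := by
      rw [← Finset.sum_div, hpd, div_self hp.ne']
    -- Jensen
    have hJ : Real.log p ≤ ∑ x, μ x * d x / p * Real.log (d x) := by
      have := sum_mul_log_le univ (fun x => μ x * d x / p) (fun x => 1 / d x)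
        (fun x _ => (div_pos (mul_pos (hμ x) (hd x)) hp).le) hθ1
        (fun x _ => div_pos one_pos (hd x))
      have e1 : ∑ x, μ x * d x / p * (1 / d x) = 1 / p := by
        have : ∀ x, μ x * d x / p * (1 / d x) = μ x / p := by
          intro x
          have := (hd x).ne'
          field_simp
        simp only [this]
        rw [← Finset.sum_div, hμ1]
      rw [e1] at this
      have e2 : ∑ x, μ x * d x / p * Real.log (1 / d x)
          = - ∑ x, μ x * d x / p * Real.log (d x) := by
        rw [← Finset.sum_neg_distrib]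
        refine Finset.sum_congr rfl fun x _ => ?_
        rw [one_div, Real.log_inv]
        ring
      rw [e2, one_div, Real.log_inv] at this
      linarith
    have e3 : ∀ x, μ x * d x / p * Real.log (μ x * d x ^ k / (μ x * d x / p))
        = μ x * d x / p * Real.log p + ((k : ℝ) - 1) * (μ x * d x / p * Real.log (d x)) := by
      intro x
      have h1 : μ x * d x ^ k / (μ x * d x / p) = p * d x ^ (k - 1) := by
        obtain ⟨j, rfl⟩ : ∃ j, k = j + 1 := ⟨k - 1, by omega⟩
        have := (hd x).ne'
        have := (hμ x).ne'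
        simp only [Nat.add_sub_cancel]
        field_simp
        ring
      rw [h1, Real.log_mul hp.ne' (pow_pos (hd x) _).ne', Real.log_pow]
      have : ((k - 1 : ℕ) : ℝ) = (k : ℝ) - 1 := by
        rw [Nat.cast_sub hk]
        simp
      rw [this]
      ring
    simp only [e3, Finset.sum_add_distrib, ← Finset.mul_sum, ← Finset.sum_mul, hθ1, one_mul]
    have hk1 : (0 : ℝ) ≤ (k : ℝ) - 1 := by
      have : (1 : ℝ) ≤ k := by exact_mod_cast hk
      linarith
    nlinarith [mul_le_mul_of_nonneg_left hJ hk1]

end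

section

variable {α : Type*} [Fintype α] [LinearOrder α]
variable {V : Type*} [Fintype V] [DecidableEq V]

lemma prod_fst_eq (E : Finset (V × V)) (g : V → ℝ) :
    ∏ e ∈ E, g e.1 = ∏ v, g v ^ (E.filter (fun e => e.1 = v)).card := by
  rw [← Finset.prod_fiberwise E Prod.fst (fun e => g e.1)]
  refine Finset.prod_congr rfl fun v _ => ?_
  rw [Finset.prod_congr rfl (g := fun _ => g v)]
  · simp
  · intro e he
    simp only [Finset.mem_filter] at he
    rw [he.2]

lemma prod_snd_eq (E : Finset (V × V)) (g : V → ℝ) :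
    ∏ e ∈ E, g e.2 = ∏ v, g v ^ (E.filter (fun e => e.2 = v)).card := by
  rw [← Finset.prod_fiberwise E Prod.snd (fun e => g e.2)]
  refine Finset.prod_congr rfl fun v _ => ?_
  rw [Finset.prod_congr rfl (g := fun _ => g v)]
  · simp
  · intro e he
    simp only [Finset.mem_filter] at he
    rw [he.2]

/-- **Sidorenko's inequality for positive TP2 kernels on a finite chain**, every bipartite
edge set. -/
theorem sidorenko_TP2 (hα : HasMajorant α) (μ ν : α → ℝ) (hμ : ∀ x, 0 < μ x) (hν : ∀ x, 0 < ν x)
    (hμ1 : ∑ x, μ x = 1) (hν1 : ∑ x, ν x = 1) (w : α → α → ℝ) (hw : ∀ x y, 0 < w x y)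
    (hwT : TP2 w) (side : V → Bool) (E : Finset (V × V))
    (hE : ∀ e ∈ E, side e.1 = false ∧ side e.2 = true) :
    (∑ x, ∑ y, μ x * ν y * w x y) ^ E.card
      ≤ ∑ f : V → α, (∏ v, (if side v then ν (f v) else μ (f v))) * ∏ e ∈ E, w (f e.1) (f e.2) := by
  classical
  have hne : Nonempty α := by
    by_contra h
    rw [not_nonempty_iff] at h
    simp at hμ1
  obtain ⟨x₀⟩ := hne
  set p : ℝ := ∑ x, ∑ y, μ x * ν y * w x y with hp
  set d : α → ℝ := fun x => ∑ y, ν y * w x y with hd
  set d' : α → ℝ := fun y => ∑ x, μ x * w x y with hd'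
  have hdpos : ∀ x, 0 < d x := fun x =>
    Finset.sum_pos (fun y _ => mul_pos (hν _) (hw _ _)) ⟨x₀, mem_univ _⟩
  have hd'pos : ∀ y, 0 < d' y := fun y =>
    Finset.sum_pos (fun x _ => mul_pos (hμ _) (hw _ _)) ⟨x₀, mem_univ _⟩
  have hpd : ∑ x, μ x * d x = p := by
    simp only [hd, hp, Finset.mul_sum]
    refine Finset.sum_congr rfl fun x _ => Finset.sum_congr rfl fun y _ => by ring
  have hpd' : ∑ y, ν y * d' y = p := by
    simp only [hd', hp, Finset.mul_sum]
    rw [Finset.sum_comm]
    refine Finset.sum_congr rfl fun x _ => Finset.sum_congr rfl fun y _ => by ring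
  have hppos : 0 < p := by
    rw [← hpd]
    exact Finset.sum_pos (fun x _ => mul_pos (hμ _) (hdpos _)) ⟨x₀, mem_univ _⟩
  set θA : α → ℝ := fun x => μ x * d x / p with hθA
  set θB : α → ℝ := fun y => ν y * d' y / p with hθB
  set Kk : α → α → ℝ := fun x y => p * w x y / (d x * d' y) with hKk
  have hOK : EdgeOK θA θB Kk := by
    refine ⟨fun x y => div_pos (mul_pos hppos (hw _ _)) (mul_pos (hdpos _) (hd'pos _)), ?_, ?_, ?_⟩
    · intro x x' y y' hx hy
      have h := hwT x x' y y' hx hy
      simp only [hKk]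
      have e1 : p * w x y' / (d x * d' y') * (p * w x' y / (d x' * d' y))
          = (w x y' * w x' y) * (p ^ 2 / (d x * d' y' * (d x' * d' y))) := by
        field_simp
      have e2 : p * w x y / (d x * d' y) * (p * w x' y' / (d x' * d' y'))
          = (w x y * w x' y') * (p ^ 2 / (d x * d' y' * (d x' * d' y))) := by
        field_simp
      rw [e1, e2]
      refine mul_le_mul_of_nonneg_right h (div_pos (pow_pos hppos 2) ?_).le
      exact mul_pos (mul_pos (hdpos _) (hd'pos _)) (mul_pos (hdpos _) (hd'pos _))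
    · intro y
      have : ∀ x, θA x * Kk x y = μ x * w x y / d' y := by
        intro x
        simp only [hθA, hKk]
        have := (hdpos x).ne'
        have := (hd'pos y).ne'
        field_simp
      simp only [this]
      rw [← Finset.sum_div]
      exact div_self (hd'pos y).ne'
    · intro x
      have : ∀ y, θB y * Kk x y = ν y * w x y / d x := by
        intro y
        simp only [hθB, hKk]
        have := (hdpos x).ne'
        have := (hd'pos y).ne'
        field_simp
      simp only [this]
      rw [← Finset.sum_div]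
      exact div_self (hdpos x).ne'
  set dA : V → ℕ := fun v => (E.filter (fun e => e.1 = v)).card with hdA
  set dB : V → ℕ := fun v => (E.filter (fun e => e.2 = v)).card with hdB
  have hdA0 : ∀ v, side v = true → dA v = 0 := by
    intro v hv
    simp only [hdA, Finset.card_eq_zero, Finset.filter_eq_empty_iff]
    intro e he h
    have := (hE e he).1
    rw [h, hv] at this
    exact absurd this (by simp)
  have hdB0 : ∀ v, side v = false → dB v = 0 := by
    intro v hv
    simp only [hdB, Finset.card_eq_zero, Finset.filter_eq_empty_iff]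
    intro e he h
    have := (hE e he).2
    rw [h, hv] at this
    exact absurd this (by simp)
  set θ : V → α → ℝ := fun v => if side v then (if dB v = 0 then ν else θB)
    else (if dA v = 0 then μ else θA) with hθ
  set φ : V → α → ℝ := fun v x => (if side v then ν x else μ x) * d x ^ dA v * d' x ^ dB v with hφ
  have hθApos : ∀ x, 0 < θA x := fun x => div_pos (mul_pos (hμ _) (hdpos _)) hppos
  have hθBpos : ∀ x, 0 < θB x := fun x => div_pos (mul_pos (hν _) (hd'pos _)) hppos
  have hθA1 : ∑ x, θA x = 1 := by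
    simp only [hθA]
    rw [← Finset.sum_div, hpd, div_self hppos.ne']
  have hθB1 : ∑ x, θB x = 1 := by
    simp only [hθB]
    rw [← Finset.sum_div, hpd', div_self hppos.ne']
  have hθpos : ∀ v x, 0 < θ v x := by
    intro v x
    simp only [hθ]
    split_ifs <;> simp [hμ, hν, hθApos, hθBpos]
  have hθ1 : ∀ v, ∑ x, θ v x = 1 := by
    intro v
    simp only [hθ]
    split_ifs <;> assumption
  have hφpos : ∀ v x, 0 < φ v x := by
    intro v x
    simp only [hφ]
    refine mul_pos (mul_pos ?_ (pow_pos (hdpos _) _)) (pow_pos (hd'pos _) _)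
    split_ifs <;> simp [hμ, hν]
  have hEdge : ∀ e ∈ E, e.1 ≠ e.2 ∧ EdgeOK (θ e.1) (θ e.2) ((fun _ => Kk) e) := by
    intro e he
    obtain ⟨h1, h2⟩ := hE e he
    refine ⟨fun h => ?_, ?_⟩
    · rw [h, h2] at h1
      exact absurd h1 (by simp)
    · have hA : dA e.1 ≠ 0 := by
        simp only [hdA]
        exact Finset.card_ne_zero_of_mem (Finset.mem_filter.2 ⟨he, rfl⟩)
      have hB : dB e.2 ≠ 0 := by
        simp only [hdB]
        exact Finset.card_ne_zero_of_mem (Finset.mem_filter.2 ⟨he, rfl⟩)
      have e1 : θ e.1 = θA := by simp only [hθ, h1, if_neg hA]; simp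
      have e2 : θ e.2 = θB := by simp only [hθ, h2, if_neg hB]; simp
      rw [e1, e2]
      exact hOK
  have hmain := bethe_bound hα θ hθpos hθ1 (fun _ => Kk) E hEdge φ hφpos
  -- lower bound for the left side
  have hL : ∀ v, ((dA v : ℝ) + dB v) * Real.log p ≤ LG (θ v) (φ v) := by
    intro v
    cases hs : side v
    · have h0 := hdB0 v hs
      have := LG_bound μ d p hppos hμ hμ1 hdpos hpd (dA v)
      simp only [hθ, hφ, hs, h0]
      simpa using this
    · have h0 := hdA0 v hs
      have := LG_bound ν d' p hppos hν hν1 hd'pos hpd' (dB v)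
      simp only [hθ, hφ, hs, h0]
      simpa using this
  have hsumA : ∑ v, (dA v : ℝ) = E.card := by
    have := Finset.card_eq_sum_card_fiberwise (f := Prod.fst) (s := E) (t := univ)
      (fun e _ => mem_univ _)
    rw [this]
    push_cast
    rfl
  have hsumB : ∑ v, (dB v : ℝ) = E.card := by
    have := Finset.card_eq_sum_card_fiberwise (f := Prod.snd) (s := E) (t := univ)
      (fun e _ => mem_univ _)
    rw [this]
    push_cast
    rfl
  have hL2 : (2 * (E.card : ℝ)) * Real.log p ≤ ∑ v, LG (θ v) (φ v) := by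
    calc (2 * (E.card : ℝ)) * Real.log p = ∑ v, ((dA v : ℝ) + dB v) * Real.log p := by
          rw [← Finset.sum_mul, Finset.sum_add_distrib, hsumA, hsumB]
          ring
      _ ≤ _ := Finset.sum_le_sum fun v _ => hL v
  -- identify the partition function
  set Zw : ℝ := ∑ f : V → α, (∏ v, (if side v then ν (f v) else μ (f v)))
    * ∏ e ∈ E, w (f e.1) (f e.2) with hZw
  have hZ : Zf φ E (fun _ => Kk) = p ^ E.card * Zw := by
    unfold Zf
    rw [hZw, Finset.mul_sum]
    refine Finset.sum_congr rfl fun f _ => ?_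
    unfold wt
    simp only [hφ, hKk, Finset.prod_mul_distrib, Finset.prod_div_distrib, Finset.prod_const]
    have e1 : ∏ e ∈ E, d (f e.1) = ∏ v, d (f v) ^ dA v := prod_fst_eq E (fun v => d (f v))
    have e2 : ∏ e ∈ E, d' (f e.2) = ∏ v, d' (f v) ^ dB v := prod_snd_eq E (fun v => d' (f v))
    rw [e1, e2]
    have h1 : (∏ v, d (f v) ^ dA v) ≠ 0 := (Finset.prod_pos fun v _ => pow_pos (hdpos _) _).ne'
    have h2 : (∏ v, d' (f v) ^ dB v) ≠ 0 := (Finset.prod_pos fun v _ => pow_pos (hd'pos _) _).ne'
    field_simp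
  have hZwpos : 0 < Zw := by
    refine Finset.sum_pos (fun f _ => mul_pos (Finset.prod_pos fun v _ => ?_)
      (Finset.prod_pos fun e _ => hw _ _)) ⟨fun _ => x₀, mem_univ _⟩
    split_ifs <;> simp [hμ, hν]
  rw [hZ, Real.log_mul (pow_pos hppos _).ne' hZwpos.ne', Real.log_pow] at hmain
  have h3 : (E.card : ℝ) * Real.log p ≤ Real.log Zw := by linarith
  rw [← Real.log_pow] at h3
  exact (Real.log_le_log_iff (pow_pos hppos _) hZwpos).1 h3

end

end Vale.Agent.Lib.P050
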