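import Vale.Agent.Lib.P050.SidTP2
import Vale.Agent.Lib.P050.Majorant

set_option linter.unusedSectionVars false
set_option linter.unusedVariables false

open Finset

namespace Vale.Agent.Lib.P050

/-- The symmetric two-state kernel. -/
def kap (A B c : ℝ) (x y : Bool) : ℝ :=
  if x then (if y then A else c) else (if y then c else B)

lemma tp2_bool (K : Bool → Bool → ℝ)
    (h : K false true * K true false ≤ K false false * K true true) : TP2 K := by
  intro x x' y y' hx hy
  cases x <;> cases x' <;> cases y <;> cases y' <;>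
    first
      | exact le_rfl
      | exact le_of_eq (mul_comm _ _)
      | exact h
      | exact absurd hx (by decide)
      | exact absurd hy (by decide)

section

variable {V : Type*} [Fintype V] [DecidableEq V]

theorem two_state_pos (a₁ a₂ A B c : ℝ) (h₁ : 0 < a₁) (h₂ : 0 < a₂) (hA : 0 < A) (hB : 0 < B)
    (hc : 0 < c) (side : V → Bool) (E : Finset (V × V))
    (hE : ∀ e ∈ E, side e.1 = false ∧ side e.2 = true) :
    ((a₁ ^ 2 * A + 2 * a₁ * a₂ * c + a₂ ^ 2 * B) / (a₁ + a₂) ^ 2) ^ E.card
        * (a₁ + a₂) ^ Fintype.card V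
      ≤ ∑ f : V → Bool, (∏ v, (if f v then a₁ else a₂)) * ∏ e ∈ E, kap A B c (f e.1) (f e.2) := by
  classical
  have hs : 0 < a₁ + a₂ := add_pos h₁ h₂
  set μ : Bool → ℝ := fun x => (if x then a₁ else a₂) / (a₁ + a₂) with hμ
  have hμpos : ∀ x, 0 < μ x := by
    intro x
    cases x <;> simp [hμ, h₁, h₂, hs]
  have hμ1 : ∑ x, μ x = 1 := by
    simp only [hμ, Fintype.sum_bool]
    simp
    field_simp
  have hprod : ∀ g : V → Bool, ∏ v, μ (g v)
      = (∏ v, (if g v then a₁ else a₂)) / (a₁ + a₂) ^ Fintype.card V := by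
    intro g
    simp only [hμ, Finset.prod_div_distrib, Finset.prod_const, Finset.card_univ]
  rcases le_total (c * c) (A * B) with hcase | hcase
  · -- attractive case
    have hT : TP2 (kap A B c) := by
      refine tp2_bool _ ?_
      simp only [kap]
      simp
      linarith
    have := sidorenko_TP2 hasMajorant_bool μ μ hμpos hμpos hμ1 hμ1 (kap A B c)
      (by intro x y; cases x <;> cases y <;> simp [kap, hA, hB, hc]) hT side E hE
    have hp : ∑ x, ∑ y, μ x * μ y * kap A B c x y
        = (a₁ ^ 2 * A + 2 * a₁ * a₂ * c + a₂ ^ 2 * B) / (a₁ + a₂) ^ 2 := by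
      simp only [hμ, Fintype.sum_bool, kap]
      simp
      field_simp
      ring
    rw [hp] at this
    have e : ∑ f : V → Bool, (∏ v, (if side v then μ (f v) else μ (f v)))
          * ∏ e ∈ E, kap A B c (f e.1) (f e.2)
        = (∑ f : V → Bool, (∏ v, (if f v then a₁ else a₂)) * ∏ e ∈ E, kap A B c (f e.1) (f e.2))
          / (a₁ + a₂) ^ Fintype.card V := by
      rw [Finset.sum_div]
      refine Finset.sum_congr rfl fun f _ => ?_
      simp only [ite_self, hprod]
      ring
    rw [e, le_div_iff₀ (pow_pos hs _)] at this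
    exact this
  · -- repulsive case: flip the second side
    have hT : TP2 (fun x y => kap A B c x (!y)) := by
      refine tp2_bool _ ?_
      simp only [kap]
      simp
      linarith
    have hν1 : ∑ x, μ (!x) = 1 := by
      rw [← hμ1]
      simp only [Fintype.sum_bool]
      simp [add_comm]
    have := sidorenko_TP2 hasMajorant_bool μ (fun y => μ (!y)) hμpos (fun y => hμpos _) hμ1 hν1
      (fun x y => kap A B c x (!y))
      (by intro x y; cases x <;> cases y <;> simp [kap, hA, hB, hc]) hT side E hE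
    have hp : ∑ x, ∑ y, μ x * μ (!y) * kap A B c x (!y)
        = (a₁ ^ 2 * A + 2 * a₁ * a₂ * c + a₂ ^ 2 * B) / (a₁ + a₂) ^ 2 := by
      simp only [hμ, Fintype.sum_bool, kap]
      simp
      field_simp
      ring
    rw [hp] at this
    -- reindex
    let flip : (V → Bool) → (V → Bool) := fun f v => if side v then !(f v) else f v
    have hinv : Function.Involutive flip := by
      intro f
      funext v
      simp only [flip]
      split_ifs <;> simp
    have e : ∑ f : V → Bool, (∏ v, (if side v then μ (!(f v)) else μ (f v)))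
          * ∏ e ∈ E, kap A B c (f e.1) (!(f e.2))
        = (∑ f : V → Bool, (∏ v, (if f v then a₁ else a₂)) * ∏ e ∈ E, kap A B c (f e.1) (f e.2))
          / (a₁ + a₂) ^ Fintype.card V := by
      rw [Finset.sum_div]
      refine Fintype.sum_equiv hinv.toPerm _ _ fun f => ?_
      have e1 : ∏ v, (if side v then μ (!(f v)) else μ (f v)) = ∏ v, μ (flip f v) := by
        refine Finset.prod_congr rfl fun v _ => ?_
        simp only [flip]
        split_ifs <;> rfl
      have e2 : ∏ e ∈ E, kap A B c (f e.1) (!(f e.2))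
          = ∏ e ∈ E, kap A B c (flip f e.1) (flip f e.2) := by
        refine Finset.prod_congr rfl fun e he => ?_
        obtain ⟨s1, s2⟩ := hE e he
        simp [flip, s1, s2]
      rw [e1, e2, hprod, div_mul_eq_mul_div]
      rfl
    rw [e, le_div_iff₀ (pow_pos hs _)] at this
    exact this

lemma kap_add (A B c ε : ℝ) (x y : Bool) :
    kap (A + ε) (B + ε) (c + ε) x y = kap A B c x y + ε := by
  cases x <;> cases y <;> simp [kap]

/-- **Sidorenko's inequality for every symmetric two-step kernel** and every bipartite edge set. -/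
theorem two_state (a₁ a₂ A B c : ℝ) (h₁ : 0 < a₁) (h₂ : 0 < a₂) (hA : 0 ≤ A) (hB : 0 ≤ B)
    (hc : 0 ≤ c) (side : V → Bool) (E : Finset (V × V))
    (hE : ∀ e ∈ E, side e.1 = false ∧ side e.2 = true) :
    ((a₁ ^ 2 * A + 2 * a₁ * a₂ * c + a₂ ^ 2 * B) / (a₁ + a₂) ^ 2) ^ E.card
        * (a₁ + a₂) ^ Fintype.card V
      ≤ ∑ f : V → Bool, (∏ v, (if f v then a₁ else a₂)) * ∏ e ∈ E, kap A B c (f e.1) (f e.2) := by
  classical
  set L : ℝ → ℝ := fun ε =>
    ((a₁ ^ 2 * (A + ε) + 2 * a₁ * a₂ * (c + ε) + a₂ ^ 2 * (B + ε)) / (a₁ + a₂) ^ 2) ^ E.card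
        * (a₁ + a₂) ^ Fintype.card V with hL
  set R : ℝ → ℝ := fun ε =>
    ∑ f : V → Bool, (∏ v, (if f v then a₁ else a₂)) * ∏ e ∈ E, (kap A B c (f e.1) (f e.2) + ε)
    with hR
  have key : ∀ ε, ε ∈ Set.Ioi (0 : ℝ) → L ε ≤ R ε := by
    intro ε hε
    have hε' : 0 < ε := hε
    have := two_state_pos a₁ a₂ (A + ε) (B + ε) (c + ε) h₁ h₂ (by linarith) (by linarith)
      (by linarith) side E hE
    simp only [kap_add] at this
    exact this
  have hLc : Continuous L := by
    simp only [hL]
    fun_prop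
  have hRc : Continuous R := by
    simp only [hR]
    fun_prop
  have hLt : Filter.Tendsto L (nhdsWithin 0 (Set.Ioi 0)) (nhds (L 0)) :=
    hLc.continuousAt.tendsto.mono_left nhdsWithin_le_nhds
  have hRt : Filter.Tendsto R (nhdsWithin 0 (Set.Ioi 0)) (nhds (R 0)) :=
    hRc.continuousAt.tendsto.mono_left nhdsWithin_le_nhds
  have := le_of_tendsto_of_tendsto hLt hRt (eventually_nhdsWithin_of_forall key)
  simpa [hL, hR] using this

end

end Vale.Agent.Lib.P050
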