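import Vale.Agent.Lib.P050.SidTP2
import Vale.Agent.Lib.P050.MajFin

/-!
# P050 subtask T2: nonnegative weights

`sidorenko_TP2_w`: from `sidorenko_TP2` (positive weights; use `hasMajorant_all α` from `MajFin.lean`
as a black box for its first argument) by the limit `ε → 0+` of
`μ_ε x = (μ x + ε) / (1 + card α * ε)`, `ν_ε` alike.  Both sides are continuous in `ε` near `0`
(see the proof of `two_state` in `TwoState.lean` for the pattern `le_of_tendsto_of_tendsto` + `fun_prop`;
for the division use `ContinuousAt` with `1 + card α * 0 ≠ 0`, or clear denominators first).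
-/

set_option linter.unusedSectionVars false
set_option linter.unusedVariables false

open Finset

namespace Vale.Agent.Lib.P050

variable {α : Type*} [Fintype α] [LinearOrder α]
variable {V : Type*} [Fintype V] [DecidableEq V]

theorem sidorenko_TP2_w (μ ν : α → ℝ) (hμ : ∀ x, 0 ≤ μ x) (hν : ∀ x, 0 ≤ ν x)
    (hμ1 : ∑ x, μ x = 1) (hν1 : ∑ x, ν x = 1) (w : α → α → ℝ) (hw : ∀ x y, 0 < w x y)
    (hwT : TP2 w) (side : V → Bool) (E : Finset (V × V))
    (hE : ∀ e ∈ E, side e.1 = false ∧ side e.2 = true) :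
    (∑ x, ∑ y, μ x * ν y * w x y) ^ E.card
      ≤ ∑ f : V → α, (∏ v, (if side v then ν (f v) else μ (f v))) * ∏ e ∈ E, w (f e.1) (f e.2) := by
  classical
  have hne : Nonempty α := by
    by_contra h
    rw [not_nonempty_iff] at h
    simp at hμ1
  set N : ℝ := (Fintype.card α : ℝ) with hN
  have hNpos : 0 < N := by
    rw [hN]
    exact_mod_cast Fintype.card_pos
  set L : ℝ → ℝ := fun t =>
    (∑ x, ∑ y, ((1 - t) * μ x + t * (1 / N)) * ((1 - t) * ν y + t * (1 / N)) * w x y) ^ E.card
    with hL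
  set R : ℝ → ℝ := fun t =>
    ∑ f : V → α, (∏ v, (if side v then ((1 - t) * ν (f v) + t * (1 / N))
      else ((1 - t) * μ (f v) + t * (1 / N)))) * ∏ e ∈ E, w (f e.1) (f e.2) with hR
  have hsum : ∀ (κ : α → ℝ) (t : ℝ), ∑ x, κ x = 1 → ∑ x, ((1 - t) * κ x + t * (1 / N)) = 1 := by
    intro κ t hκ
    rw [Finset.sum_add_distrib, ← Finset.mul_sum, hκ, Finset.sum_const, Finset.card_univ,
      nsmul_eq_mul, ← hN]
    field_simp
    ring
  have key : ∀ t, t ∈ Set.Ioo (0 : ℝ) 1 → L t ≤ R t := by
    intro t ht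
    have h0 : 0 < t := ht.1
    have h1 : 0 < 1 - t := by linarith [ht.2]
    have hpos : ∀ (κ : α → ℝ), (∀ x, 0 ≤ κ x) → ∀ x, 0 < (1 - t) * κ x + t * (1 / N) := by
      intro κ hκ x
      have a1 : 0 ≤ (1 - t) * κ x := mul_nonneg h1.le (hκ x)
      have a2 : 0 < t * (1 / N) := mul_pos h0 (by positivity)
      linarith
    exact sidorenko_TP2 (hasMajorant_all α) (fun x => (1 - t) * μ x + t * (1 / N))
      (fun x => (1 - t) * ν x + t * (1 / N)) (hpos μ hμ) (hpos ν hν) (hsum μ t hμ1) (hsum ν t hν1)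
      w hw hwT side E hE
  have hLc : Continuous L := by
    simp only [hL]
    fun_prop
  have hRc : Continuous R := by
    simp only [hR]
    refine continuous_finsetSum _ fun f _ => Continuous.mul ?_ continuous_const
    refine continuous_finsetProd _ fun v _ => ?_
    split_ifs <;> fun_prop
  have hLt : Filter.Tendsto L (nhdsWithin 0 (Set.Ioi 0)) (nhds (L 0)) :=
    hLc.continuousAt.tendsto.mono_left nhdsWithin_le_nhds
  have hRt : Filter.Tendsto R (nhdsWithin 0 (Set.Ioi 0)) (nhds (R 0)) :=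
    hRc.continuousAt.tendsto.mono_left nhdsWithin_le_nhds
  have := le_of_tendsto_of_tendsto hLt hRt
    (Filter.eventually_of_mem (Ioo_mem_nhdsGT one_pos) key)
  simpa [hL, hR] using this

end Vale.Agent.Lib.P050
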